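import Crest.Agent.R12.BI.Defs

/-! Row 12, block BI: exponent arithmetic.  Prefix for helper lemmas: `bia_`. -/

set_option autoImplicit false

namespace Crest.Agent.R12.BI

open Crest.Agent.R17 Crest.Agent.R12 MeasureTheory
open scoped ComplexConjugate

namespace Rg

variable {η e Z a A B : ℝ} (h : Rg η e Z a A B)
include h

theorem a_pos : 0 < a := lt_of_lt_of_le (Real.rpow_pos_of_pos (by linarith [h.hZ]) _) h.ha

/-- `B / a ≤ Z^(1/2 - η) Z^η` -/
theorem BT_le : B / a ≤ Z ^ (1 / 2 : ℝ) := by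
  have hZ : 0 < Z := by linarith [h.hZ]
  have hB := h.hB
  calc B / a ≤ Z ^ (1 / 2 - η) / Z ^ (-η) :=
        div_le_div₀ (by positivity) h.hBZ (by positivity) h.ha
    _ = Z ^ (1 / 2 : ℝ) := by
        rw [← Real.rpow_sub hZ]
        congr 1
        ring

theorem B_le : B ≤ Z ^ (1 / 2 : ℝ) := by
  exact (le_div_self (by linarith [h.hB]) h.a_pos h.ha1).trans h.BT_le

theorem two_A_le : 2 * A ≤ Z ^ 3 := by
  have hZ := h.hZ
  have h1 : A ≤ A * B := le_mul_of_one_le_right (by linarith [h.hA]) h.hB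
  have h2 : Z ^ (1 + e) ≤ Z ^ (2 : ℝ) :=
    Real.rpow_le_rpow_of_exponent_le (by linarith) (by linarith [h.he'])
  rw [Real.rpow_two] at h2
  have h3 := h1.trans (h.hi.trans h2)
  have h4 := h.hA
  calc 2 * A ≤ Z * Z ^ 2 := by gcongr
    _ = Z ^ 3 := by ring

theorem two_B_le : 2 * B ≤ Z ^ 3 := by
  have hZ := h.hZ
  have h2 : Z ^ (1 / 2 : ℝ) ≤ Z ^ (2 : ℝ) :=
    Real.rpow_le_rpow_of_exponent_le (by linarith) (by norm_num)
  rw [Real.rpow_two] at h2
  have h3 := h.B_le.trans h2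
  have h4 := h.hB
  calc 2 * B ≤ Z * Z ^ 2 := by gcongr
    _ = Z ^ 3 := by ring

/-- `2 √2 ≤ Z^(3/2)` -/
theorem BT_rpow_le : (2 * B / (a / √2)) ^ e ≤ Z ^ (2 * e) := by
  have hZ := h.hZ
  have hZ0 : 0 ≤ Z := by linarith
  have ha := h.a_pos
  have hB := h.hB
  have h1 := h.BT_le
  rw [← Real.sqrt_eq_rpow] at h1
  have h2 : 2 * B / (a / √2) ≤ Z ^ (2 : ℝ) := by
    calc 2 * B / (a / √2) = 2 * (√2 * (B / a)) := by field_simp
      _ ≤ Z * (√Z * √Z) := by gcongr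
      _ = Z ^ (2 : ℝ) := by rw [Real.mul_self_sqrt hZ0, Real.rpow_two, sq]
  rw [Real.rpow_mul hZ0]
  exact Real.rpow_le_rpow (by positivity) h2 h.he.le

/-- the range in logarithmic form -/
theorem bib_log : 0 ≤ e * Real.log Z ∧ e * Real.log Z ≤ Real.log Z / 2000 ∧
    20 * (e * Real.log Z) ≤ η * Real.log Z ∧ -(η * Real.log Z) ≤ Real.log a ∧
    Real.log A ≤ Real.log 4 + 2 * Real.log B ∧ Real.log B ≤ Real.log Z / 2 - η * Real.log Z ∧
    Real.log Z - e * Real.log Z ≤ Real.log A + Real.log B ∧ 0 ≤ Real.log 4 := by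
  have hZ : 0 < Z := by linarith [h.hZ]
  have hA : 0 < A := by linarith [h.hA]
  have hB : 0 < B := by linarith [h.hB]
  have hL : 0 ≤ Real.log Z := Real.log_nonneg (by linarith [h.hZ])
  have h1 := Real.log_le_log (Real.rpow_pos_of_pos hZ _) h.ha
  have h2 := Real.log_le_log hA h.hAB
  have h3 := Real.log_le_log hB h.hBZ
  have h4 := Real.log_le_log (Real.rpow_pos_of_pos hZ _) h.lo
  rw [Real.log_rpow hZ] at h1 h3 h4
  rw [Real.log_mul (by norm_num) (by positivity), Real.log_pow] at h2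
  rw [Real.log_mul hA.ne' hB.ne'] at h4
  refine ⟨mul_nonneg h.he.le hL, ?_, ?_, by linarith, by exact_mod_cast h2, by linarith, by linarith,
    Real.log_nonneg (by norm_num)⟩
  · nlinarith [h.he']
  · nlinarith [h.hη]

/-- `A^(3/4) = (A B)^(2/3) A^(1/12) B^(-2/3)`, `A ≤ 4 B²`, `Z^(1-e) ≤ A B ≤ 4 B³` -/
theorem A34 : A ^ (3 / 4 : ℝ) ≤ 4 * ((A * B) ^ (2 / 3 : ℝ) * Z ^ (-e)) := by
  obtain ⟨l1, l2, l3, l4, l5, l6, l7, l8⟩ := h.bib_log
  have hZ : 0 < Z := by linarith [h.hZ]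
  have hA : 0 < A := by linarith [h.hA]
  have hB : 0 < B := by linarith [h.hB]
  rw [← Real.log_le_log_iff (by positivity) (by positivity), Real.log_mul (by norm_num) (by positivity),
    Real.log_mul (by positivity) (by positivity), Real.log_rpow hA, Real.log_rpow hZ,
    Real.log_rpow (by positivity), Real.log_mul hA.ne' hB.ne']
  linarith

theorem BT : Z ^ (3 * e) * (B / a) ≤ (A * B) ^ (2 / 3 : ℝ) * Z ^ (-e) := by
  have hZ := h.hZ
  have hZ0 : 0 < Z := by linarith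
  have he := h.he'
  have h1 : (Z ^ (1 - e)) ^ (2 / 3 : ℝ) ≤ (A * B) ^ (2 / 3 : ℝ) :=
    Real.rpow_le_rpow (by positivity) h.lo (by norm_num)
  calc Z ^ (3 * e) * (B / a) ≤ Z ^ (3 * e) * Z ^ (1 / 2 : ℝ) :=
        mul_le_mul_of_nonneg_left h.BT_le (by positivity)
    _ ≤ (Z ^ (1 - e)) ^ (2 / 3 : ℝ) * Z ^ (-e) := by
        rw [← Real.rpow_mul hZ0.le, ← Real.rpow_add hZ0, ← Real.rpow_add hZ0]
        exact Real.rpow_le_rpow_of_exponent_le (by linarith) (by linarith)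
    _ ≤ _ := mul_le_mul_of_nonneg_right h1 (by positivity)

/-- `A^(1/3) B a^(-1/3) = (A B)^(2/3) (B² a⁻¹ / (A B))^(1/3)`, `B² / a ≤ Z^(1-η)` -/
theorem A13 : Z ^ (3 * e) * (A ^ (1 / 3 : ℝ) * B * a ^ (-(1 / 3) : ℝ)) ≤ (A * B) ^ (2 / 3 : ℝ) * Z ^ (-e) := by
  obtain ⟨l1, l2, l3, l4, l5, l6, l7, l8⟩ := h.bib_log
  have hZ : 0 < Z := by linarith [h.hZ]
  have hA : 0 < A := by linarith [h.hA]
  have hB : 0 < B := by linarith [h.hB]
  have ha := h.a_pos
  rw [← Real.log_le_log_iff (by positivity) (by positivity),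
    Real.log_mul (by positivity) (by positivity), Real.log_mul (by positivity) (by positivity),
    Real.log_mul (by positivity) (by positivity), Real.log_mul (by positivity) (by positivity),
    Real.log_rpow hA, Real.log_rpow hZ, Real.log_rpow hZ, Real.log_rpow ha,
    Real.log_rpow (by positivity), Real.log_mul hA.ne' hB.ne']
  linarith

/-- `Z^(1/2 - e) ≤ A` -/
theorem sqrtA : √A ≤ A * Z ^ (-e) := by
  have hZ := h.hZ
  have hZ0 : 0 < Z := by linarith
  have he := h.he'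
  have hA : 0 ≤ A := by linarith [h.hA]
  have h1 : (Z ^ e) ^ 2 * Z ^ (1 / 2 : ℝ) ≤ A * Z ^ (1 / 2 : ℝ) := by
    refine le_trans ?_ (h.lo.trans (mul_le_mul_of_nonneg_left h.B_le hA))
    rw [← Real.rpow_two, ← Real.rpow_mul hZ0.le, ← Real.rpow_add hZ0]
    exact Real.rpow_le_rpow_of_exponent_le (by linarith) (by linarith)
  have h2 : Z ^ e ≤ √A := Real.le_sqrt_of_sq_le (le_of_mul_le_mul_right h1 (by positivity))
  rw [Real.rpow_neg hZ0.le, ← div_eq_mul_inv, le_div_iff₀ (by positivity)]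
  calc √A * Z ^ e ≤ √A * √A := by gcongr
    _ = A := Real.mul_self_sqrt hA

theorem far : A * B * Z ^ (-2 : ℝ) ≤ (A * B) ^ (2 / 3 : ℝ) * Z ^ (-e) := by
  have hZ := h.hZ
  have hZ0 : 0 < Z := by linarith
  have he := h.he'
  have hAB : 0 < A * B := mul_pos (by linarith [h.hA]) (by linarith [h.hB])
  have h1 : (A * B) ^ (1 / 3 : ℝ) ≤ (Z ^ (1 + e)) ^ (1 / 3 : ℝ) :=
    Real.rpow_le_rpow hAB.le h.hi (by norm_num)
  have h2 : A * B = (A * B) ^ (2 / 3 : ℝ) * (A * B) ^ (1 / 3 : ℝ) := by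
    rw [← Real.rpow_add hAB]
    norm_num
  calc A * B * Z ^ (-2 : ℝ) = (A * B) ^ (2 / 3 : ℝ) * ((A * B) ^ (1 / 3 : ℝ) * Z ^ (-2 : ℝ)) := by
        rw [← mul_assoc, ← h2]
    _ ≤ (A * B) ^ (2 / 3 : ℝ) * ((Z ^ (1 + e)) ^ (1 / 3 : ℝ) * Z ^ (-2 : ℝ)) := by gcongr
    _ ≤ _ := by
        refine mul_le_mul_of_nonneg_left ?_ (by positivity)
        rw [← Real.rpow_mul hZ0.le, ← Real.rpow_add hZ0]
        exact Real.rpow_le_rpow_of_exponent_le (by linarith) (by linarith)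

/-- `Z^(-e) ≤ exp u`, so `Z^(1-2e) ≤ A exp u · B` -/
theorem near {u : ℝ} (hu : |u| ≤ e * Real.log Z) : 1 ≤ A * Real.exp u ∧
    B ≤ (A * Real.exp u * B) ^ (501 / 1000 : ℝ) ∧
    (A * Real.exp u * B) ^ (-(1 / 1000) : ℝ) ≤ Z ^ (-(e / 4)) ∧
    (A * Real.exp u * B) ^ (-(1 / 100) : ℝ) ≤ Z ^ (-e) := by
  obtain ⟨l1, l2, l3, l4, l5, l6, l7, l8⟩ := h.bib_log
  have hZ : 0 < Z := by linarith [h.hZ]
  have hA : 0 < A := by linarith [h.hA]
  have hB : 0 < B := by linarith [h.hB]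
  have hu' := (abs_le.1 hu).1
  have h0 : 0 < A * Real.exp u := by positivity
  have h1 : 0 < A * Real.exp u * B := by positivity
  have e0 : Real.log (A * Real.exp u) = Real.log A + u := by
    rw [Real.log_mul hA.ne' (Real.exp_pos u).ne', Real.log_exp]
  have e1 : Real.log (A * Real.exp u * B) = Real.log A + u + Real.log B := by
    rw [Real.log_mul h0.ne' hB.ne', e0]
  refine ⟨?_, ?_, ?_, ?_⟩
  · rw [← Real.log_le_log_iff one_pos h0, Real.log_one, e0]
    linarith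
  · rw [← Real.log_le_log_iff hB (by positivity), Real.log_rpow h1, e1]
    linarith
  · rw [← Real.log_le_log_iff (by positivity) (by positivity), Real.log_rpow h1, Real.log_rpow hZ, e1]
    linarith
  · rw [← Real.log_le_log_iff (by positivity) (by positivity), Real.log_rpow h1, Real.log_rpow hZ, e1]
    linarith

end Rg

end Crest.Agent.R12.BI
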