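import Crest.Agent.R12.BI.Defs

/-! Row 12, block BI: the remainder of the cube rows for thin columns.  Prefix: `bir_`. -/

set_option autoImplicit false

namespace Crest.Agent.R12.BI

open Crest.Agent.R17 Crest.Agent.R12 MeasureTheory
open scoped ComplexConjugate

/-- the columns with the square root of the weight and one divisor factor -/
noncomputable def bir_g (a B : ℝ) (γ : O → ℂ) : O → ℂ :=
  fun b => γ b * ((√(LW a B (nm b)) * dn b : ℝ) : ℂ)

theorem bir_norm_sq (a B : ℝ) (γ : O → ℂ) (b : O) :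
    ‖bir_g a B γ b‖ ^ 2 = ‖γ b‖ ^ 2 * LW a B (nm b) * dn b ^ 2 := by
  have h0 := (LW_pos a B (nm b)).le
  have h1 := dn_nonneg b
  rw [bir_g, norm_mul, Complex.norm_real, Real.norm_of_nonneg (by positivity), mul_pow, mul_pow,
    Real.sq_sqrt h0]
  ring

theorem bir_quart {N a B : ℝ} (hN : 1 ≤ N) (ha : 0 < a) (hB : 0 < B) :
    N ^ (1 / 4 : ℝ) * (a * (B / N) + √(B / N)) ≤ a * B + √B := by
  have hN0 : 0 < N := by linarith
  have h1 : N ^ (1 / 4 : ℝ) ≤ N := by
    calc N ^ (1 / 4 : ℝ) ≤ N ^ (1 : ℝ) := Real.rpow_le_rpow_of_exponent_le hN (by norm_num)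
      _ = N := Real.rpow_one N
  have h2 : N ^ (1 / 4 : ℝ) ≤ √N := by
    rw [Real.sqrt_eq_rpow]
    exact Real.rpow_le_rpow_of_exponent_le hN (by norm_num)
  have hs : 0 < √N := Real.sqrt_pos.2 hN0
  rw [mul_add, Real.sqrt_div hB.le]
  refine add_le_add ?_ ?_
  · calc N ^ (1 / 4 : ℝ) * (a * (B / N)) ≤ N * (a * (B / N)) := by gcongr
      _ = a * B := by field_simp
  · calc N ^ (1 / 4 : ℝ) * (√B / √N) ≤ √N * (√B / √N) := by gcongr
      _ = √B := by field_simp

theorem bir_cs (a B X : ℝ) (γ : O → ℂ) {g : O} (hg : g ≠ 0) :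
    (∑ n ∈ ball X, ‖gu a B γ (g * n)‖ * dn n) ^ 2 ≤
      (∑ n ∈ ball X, ‖bir_g a B γ (g * n)‖ ^ 2) *
        ∑ n ∈ (ball X).filter (fun n => nm n ≠ 0), LW a (B / nm g) (nm n) := by
  have e : ∑ n ∈ ball X, ‖gu a B γ (g * n)‖ * dn n =
      ∑ n ∈ (ball X).filter (fun n => nm n ≠ 0),
        (‖γ (g * n)‖ * √(LW a B (nm (g * n))) * dn n) * √(LW a B (nm (g * n))) := by
    rw [Finset.sum_filter]
    refine Finset.sum_congr rfl fun n _ => ?_
    split_ifs with h
    · rw [norm_gu]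
      have := Real.mul_self_sqrt (LW_pos a B (nm (g * n))).le
      calc ‖γ (g * n)‖ * LW a B (nm (g * n)) * dn n
          = ‖γ (g * n)‖ * (√(LW a B (nm (g * n))) * √(LW a B (nm (g * n)))) * dn n := by rw [this]
        _ = _ := by ring
    · have hn : n = 0 := by
        by_contra hn
        exact h (nm_pos hn).ne'
      rw [hn, dn_zero, mul_zero]
  rw [e]
  refine (Finset.sum_mul_sq_le_sq_mul_sq _ _ _).trans (mul_le_mul ?_ (le_of_eq ?_)
    (Finset.sum_nonneg fun _ _ => sq_nonneg _) (Finset.sum_nonneg fun _ _ => sq_nonneg _))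
  · refine le_trans (Finset.sum_le_sum fun n hn => ?_)
      (Finset.sum_le_sum_of_subset_of_nonneg (Finset.filter_subset _ _) fun _ _ _ => sq_nonneg _)
    have hn0 : n ≠ 0 := by
      rintro rfl
      exact (Finset.mem_filter.1 hn).2 nm_zero
    have h0 := (LW_pos a B (nm (g * n))).le
    have h1 := dn_nonneg n
    have h2 : dn n ≤ dn (g * n) := dn_le_of_dvd (mul_ne_zero hg hn0) (Dvd.intro_left g rfl)
    rw [bir_norm_sq, mul_pow, mul_pow, Real.sq_sqrt h0]
    gcongr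
  · refine Finset.sum_congr rfl fun n _ => ?_
    rw [Real.sq_sqrt (LW_pos _ _ _).le, nm_mul, LW_mul_arg]

theorem bir_sum_dn {b : O} : ∑ l ∈ pdiv b, dn l ≤ dn b ^ 2 := by
  by_cases hb : b = 0
  · have : (pdiv b).card = 0 := by
      have h := dn_zero
      rw [← hb, dn] at h
      exact_mod_cast h
    rw [Finset.card_eq_zero.1 this, Finset.sum_empty]
    positivity
  · calc ∑ l ∈ pdiv b, dn l ≤ ∑ _l ∈ pdiv b, dn b :=
          Finset.sum_le_sum fun l hl => dn_le_of_dvd hb ((mem_pdiv hb).1 hl).2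
      _ = dn b ^ 2 := by rw [Finset.sum_const, nsmul_eq_mul, sq]; rfl

/-- For `g ∈ sball X`, Cauchy–Schwarz over the `n` with `γ (g n) ≠ 0`:
`(∑ ‖γ (g n)‖ LW d(n))² ≤ (∑ ‖γ (g n)‖² LW d(g n)²) ∑ LW a B' (N (g n))`, the last sum is
`≤ C (a B' / N g + √(B' / N g))` (`LW_mul_arg`, `sum_LW_le`), and `N g^(1/4)` times this is
`≤ C (a B' + √B')`.  Then `sum_label` for `γ' b = √(LW) d(b) ‖γ b‖` and `w = dn`:
`∑_{g ∣ b} d(g) ≤ d(b)²` (`dn_le_of_dvd`). -/
theorem cr_le : ∃ C : ℝ, 0 < C ∧ ∀ (a B' B X : ℝ) (γ : O → ℂ), 0 < a → a ≤ 1 → 0 < B' → Supp γ B X →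
    CR (gu a B' γ) X ≤ C * (a * B' + √B') * QU a B' γ X := by
  obtain ⟨C, hC, H⟩ := sum_LW_le
  refine ⟨C, hC, fun a B' B X γ ha ha1 hB hs => ?_⟩
  have hs' : Supp (bir_g a B' γ) B X := hs.mul _
  have hK : 0 ≤ C * (a * B' + √B') := by positivity
  calc CR (gu a B' γ) X
      ≤ ∑ g ∈ sball X, C * (a * B' + √B') * (dn g * ∑ n ∈ ball X, ‖bir_g a B' γ (g * n)‖ ^ 2) := by
        refine Finset.sum_le_sum fun g hg => ?_
        have hg0 : g ≠ 0 := (mem_sball.1 hg).2.1.ne_zero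
        have hN : 1 ≤ nm g := one_le_nm hg0
        have hN0 : 0 < nm g := nm_pos hg0
        have h1 := bir_cs a B' X γ hg0
        have h2 := H a (B' / nm g) ((ball X).filter (fun n => nm n ≠ 0)) ha (by linarith)
          (by positivity) fun n hn => by
            rintro rfl
            exact (Finset.mem_filter.1 hn).2 nm_zero
        have h3 := bir_quart hN ha hB
        have h4 := dn_nonneg g
        have h5 : 0 ≤ ∑ n ∈ ball X, ‖bir_g a B' γ (g * n)‖ ^ 2 :=
          Finset.sum_nonneg fun _ _ => sq_nonneg _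
        have h6 : 0 ≤ nm g ^ (1 / 4 : ℝ) := by positivity
        set T := ∑ n ∈ ball X, ‖bir_g a B' γ (g * n)‖ ^ 2
        calc nm g ^ (1 / 4 : ℝ) * dn g * (∑ n ∈ ball X, ‖gu a B' γ (g * n)‖ * dn n) ^ 2
            ≤ nm g ^ (1 / 4 : ℝ) * dn g * (T * (C * (a * (B' / nm g) + √(B' / nm g)))) := by
              gcongr
              exact h1.trans (mul_le_mul_of_nonneg_left h2 h5)
          _ = C * (nm g ^ (1 / 4 : ℝ) * (a * (B' / nm g) + √(B' / nm g))) * (dn g * T) := by ring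
          _ ≤ C * (a * B' + √B') * (dn g * T) := by gcongr
    _ = C * (a * B' + √B') * ∑ b ∈ ball X, ‖bir_g a B' γ b‖ ^ 2 * ∑ l ∈ pdiv b, dn l := by
        rw [← Finset.mul_sum, sum_label hs' dn]
    _ ≤ C * (a * B' + √B') * QU a B' γ X := by
        refine mul_le_mul_of_nonneg_left (Finset.sum_le_sum fun b _ => ?_) hK
        have h0 := (LW_pos a B' (nm b)).le
        have h1 := dn_nonneg b
        rw [bir_norm_sq]
        calc ‖γ b‖ ^ 2 * LW a B' (nm b) * dn b ^ 2 * ∑ l ∈ pdiv b, dn l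
            ≤ ‖γ b‖ ^ 2 * LW a B' (nm b) * dn b ^ 2 * dn b ^ 2 := by
              gcongr
              exact bir_sum_dn
          _ = ‖γ b‖ ^ 2 * dn b ^ 4 * LW a B' (nm b) := by ring

end Crest.Agent.R12.BI
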