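import Crest.Agent.R12.BI.Defs

/-! Row 12, block BI: the off-diagonal term.  Prefix for helper lemmas: `bio_`. -/

set_option autoImplicit false

namespace Crest.Agent.R12.BI

open Crest.Agent.R17 Crest.Agent.R12 MeasureTheory
open scoped ComplexConjugate

/-- `sum_label` with `w l = d(l)²`, `∑_{l ∣ b} d(l)² ≤ d(b)³ ≤ d(b)⁴` -/
theorem sum_NL_le {γ : O → ℂ} {B X : ℝ} (h : Supp γ B X) :
    ∑ l ∈ sball X, dn l ^ 2 * NL γ X l ≤ N2d γ X := by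
  unfold NL
  rw [sum_label h fun l => dn l ^ 2, N2d]
  refine Finset.sum_le_sum fun b _ => ?_
  by_cases h0 : γ b = 0
  · simp [h0]
  have hb := (h b h0).1.ne_zero
  have a5 : ∑ l ∈ pdiv b, dn l ^ 2 ≤ dn b ^ 3 := by
    refine (Finset.sum_le_card_nsmul _ _ (dn b ^ 2) fun l hl => ?_).trans_eq ?_
    · exact pow_le_pow_left₀ (dn_nonneg l) (dn_le_of_dvd hb ((mem_pdiv hb).1 hl).2) 2
    · rw [nsmul_eq_mul, ← dn]; ring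
  have a6 : dn b ^ 3 ≤ dn b ^ 4 := pow_le_pow_right₀ (one_le_dn hb) (by norm_num)
  exact mul_le_mul_of_nonneg_left (a5.trans a6) (by positivity)

/-- `dn_pow_le 2` with `ε = 2/3`, `card_ball_le` -/
theorem sum_small_label : ∃ C : ℝ, 0 < C ∧ ∀ Q X : ℝ, 1 ≤ Q →
    ∑ l ∈ sball X, (if nm l ≤ Q then dn l ^ 2 * nm l ^ (1 / 3 : ℝ) else 0) ≤ C * Q ^ 2 := by
  obtain ⟨C, hC, h⟩ := dn_pow_le 2 (by norm_num : (0 : ℝ) < 2 / 3)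
  refine ⟨C * 11, by positivity, fun Q X hQ => ?_⟩
  rw [← Finset.sum_filter]
  have h1 := card_le_of_nm_le (by linarith : 0 ≤ Q) (A := (sball X).filter fun l => nm l ≤ Q)
    fun n hn => ⟨(mem_sball.1 (Finset.mem_filter.1 hn).1).2.ne_zero, (Finset.mem_filter.1 hn).2⟩
  refine (Finset.sum_le_card_nsmul _ _ (C * Q) fun l hl => ?_).trans ?_
  · obtain ⟨h2, h3⟩ := Finset.mem_filter.1 hl
    have h4 := (mem_sball.1 h2).2.ne_zero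
    have h5 := nm_pos h4
    calc dn l ^ 2 * nm l ^ (1 / 3 : ℝ) ≤ C * nm l ^ (2 / 3 : ℝ) * nm l ^ (1 / 3 : ℝ) := by
          gcongr
          exact h l h4
      _ = C * nm l := by rw [mul_assoc, ← Real.rpow_add h5]; norm_num
      _ ≤ _ := by gcongr
  · rw [nsmul_eq_mul]
    calc _ ≤ 11 * Q * (C * Q) := by gcongr
      _ = _ := by ring

theorem bio_cube {a : ℝ} (ha : 0 < a) : ∃ x, 0 < x ∧ a = x ^ 3 :=
  ⟨a ^ ((3 : ℕ) : ℝ)⁻¹, by positivity, (Real.rpow_inv_natCast_pow ha.le (by norm_num)).symm⟩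

theorem bio_rp {t : ℝ} (ht : 0 < t) (θ : ℝ) : (t ^ 3) ^ θ = t ^ (3 * θ) := by
  rw [← Real.rpow_natCast, ← Real.rpow_mul ht.le]; norm_num

theorem bio_r1 {t : ℝ} (ht : 0 < t) : (t ^ 3) ^ (1 / 3 : ℝ) = t := by
  rw [bio_rp ht]; norm_num

theorem bio_r2 {t : ℝ} (ht : 0 < t) : (t ^ 3) ^ (2 / 3 : ℝ) = t ^ 2 := by
  rw [bio_rp ht]; norm_num

theorem bio_le {x : ℝ} (hx : 0 < x) (h : x ^ 3 ≤ 1) : x ≤ 1 :=
  (pow_le_one_iff_of_nonneg hx.le (by norm_num)).1 h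

theorem bio_e1 {a A B : ℝ} (ha : 0 < a) (ha1 : a ≤ 1) (hA : 0 < A) (hB : 0 < B) :
    (a ^ 2)⁻¹ * (a * A / B) * ((B ^ 2 / (a ^ 2 * A)) ^ (1 / 3 : ℝ) * B) ≤
      (A * B) ^ (2 / 3 : ℝ) / a ^ 4 := by
  obtain ⟨x, hx, rfl⟩ := bio_cube ha
  obtain ⟨y, hy, rfl⟩ := bio_cube hA
  obtain ⟨w, hw, rfl⟩ := bio_cube hB
  have hx1 := bio_le hx ha1
  rw [show (w ^ 3) ^ 2 / ((x ^ 3) ^ 2 * y ^ 3) = (w ^ 2 / (x ^ 2 * y)) ^ 3 by field_simp,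
    bio_r1 (by positivity), ← mul_pow y, bio_r2 (by positivity)]
  calc _ = (y * w) ^ 2 / x ^ 5 := by field_simp
    _ ≤ (y * w) ^ 2 / x ^ 12 :=
        div_le_div_of_nonneg_left (by positivity) (by positivity)
          (pow_le_pow_of_le_one hx.le hx1 (by norm_num))
    _ = _ := by ring

theorem bio_e2 {a A B : ℝ} (ha : 0 < a) (ha1 : a ≤ 1) (hA : 0 < A) (hB : 0 < B) :
    (a ^ 2)⁻¹ * (a * A / B) * (B ^ 2 / (a ^ 2 * A)) ^ (1 / 3 : ℝ) ≤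
      A ^ (2 / 3 : ℝ) * B ^ (-(1 / 3) : ℝ) / a ^ 2 := by
  obtain ⟨x, hx, rfl⟩ := bio_cube ha
  obtain ⟨y, hy, rfl⟩ := bio_cube hA
  obtain ⟨w, hw, rfl⟩ := bio_cube hB
  have hx1 := bio_le hx ha1
  rw [show (w ^ 3) ^ 2 / ((x ^ 3) ^ 2 * y ^ 3) = (w ^ 2 / (x ^ 2 * y)) ^ 3 by field_simp,
    bio_r1 (by positivity), bio_r2 hy, Real.rpow_neg (by positivity), bio_r1 hw]
  calc _ = y ^ 2 * w⁻¹ / x ^ 5 := by field_simp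
    _ ≤ y ^ 2 * w⁻¹ / x ^ 6 :=
        div_le_div_of_nonneg_left (by positivity) (by positivity)
          (pow_le_pow_of_le_one hx.le hx1 (by norm_num))
    _ = _ := by ring

theorem bio_e3 {a A B : ℝ} (ha : 0 < a) (ha1 : a ≤ 1) (hA : 1 ≤ A) (hB : 0 < B) :
    (a ^ 2)⁻¹ * (a * A / B) * (B ^ 2 / (a ^ 2 * A) + (B ^ 2 / (a ^ 2 * A) * B) ^ (2 / 3 : ℝ)) ≤
      2 * (A ^ (1 / 3 : ℝ) * B / a ^ 3) := by
  obtain ⟨x, hx, rfl⟩ := bio_cube ha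
  obtain ⟨y, hy, rfl⟩ := bio_cube (by linarith : 0 < A)
  obtain ⟨w, hw, rfl⟩ := bio_cube hB
  have hx1 := bio_le hx ha1
  have hy1 : 1 ≤ y := (one_le_pow_iff_of_nonneg hy.le (by norm_num)).1 hA
  rw [show (w ^ 3) ^ 2 / ((x ^ 3) ^ 2 * y ^ 3) * w ^ 3 = (w ^ 3 / (x ^ 2 * y)) ^ 3 by field_simp,
    bio_r2 (by positivity), bio_r1 hy]
  calc _ = 1 * w ^ 3 / x ^ 9 + y * w ^ 3 / x ^ 7 := by field_simp
    _ ≤ y * w ^ 3 / x ^ 9 + y * w ^ 3 / x ^ 9 := by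
        refine add_le_add (by gcongr) ?_
        exact div_le_div_of_nonneg_left (by positivity) (by positivity)
          (pow_le_pow_of_le_one hx.le hx1 (by norm_num))
    _ = _ := by ring

theorem bio_e4 {a A B ε : ℝ} (ha : 0 < a) (ha1 : a ≤ 1) (hA : 1 ≤ A) (hB : 0 < B) (hε : 0 < ε)
    (hε' : ε ≤ 1 / 2) : (B ^ 2 / (a ^ 2 * A) * B) ^ ε ≤ B ^ (3 * ε) / a := by
  have h1 : B ^ 2 / (a ^ 2 * A) * B ≤ B ^ 3 / a ^ 2 := by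
    calc _ = B ^ 3 / (a ^ 2 * A) := by ring
      _ ≤ _ := div_le_div_of_nonneg_left (by positivity) (by positivity)
          (le_mul_of_one_le_right (by positivity) hA)
  have h2 : a ≤ (a ^ 2) ^ ε := by
    rw [← Real.rpow_natCast, ← Real.rpow_mul ha.le]
    exact (Real.rpow_one a).ge.trans
      (Real.rpow_le_rpow_of_exponent_ge ha ha1 (by push_cast; linarith))
  calc _ ≤ (B ^ 3 / a ^ 2) ^ ε := Real.rpow_le_rpow (by positivity) h1 hε.le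
    _ = B ^ (3 * ε) / (a ^ 2) ^ ε := by rw [Real.div_rpow (by positivity) (by positivity), bio_rp hB]
    _ ≤ _ := div_le_div_of_nonneg_left (by positivity) ha h2

theorem bio_ph1 {C B K Q : ℝ} (hC : 0 ≤ C) (hB : 0 ≤ B) (hK : 0 ≤ K) (hQ : 1 ≤ Q) (δ : ℝ) (γ : O → ℂ)
    {l : O} (hl : l ≠ 0) :
    nm l ^ (1 / 3 : ℝ) * ph1 C B K Q δ γ l ≤ C * K ^ (1 / 3 : ℝ) *
      (B * Q ^ (-(1 / 4) : ℝ) * NL γ (2 * B) l +
        if nm l ≤ Q then nm l ^ (1 / 3 : ℝ) * (Q * δ ^ 2) else 0) := by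
  have h1 := one_le_nm hl
  have h0 : 0 < nm l := by linarith
  have hN := NL_nonneg γ (2 * B) l
  have hQ0 : 0 < Q := by linarith
  have e : nm l ^ (1 / 3 : ℝ) * (B / nm l) = B * nm l ^ (-(2 / 3) : ℝ) := by
    rw [show (-(2 / 3) : ℝ) = 1 / 3 - 1 by norm_num, Real.rpow_sub_one h0.ne']; ring
  rw [ph1, mul_left_comm]
  refine mul_le_mul_of_nonneg_left ?_ (by positivity)
  split_ifs with h
  · have h2 : nm l ^ (-(2 / 3) : ℝ) ≤ 1 := Real.rpow_le_one_of_one_le_of_nonpos h1 (by norm_num)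
    calc _ = nm l ^ (1 / 3 : ℝ) * (B / nm l) * Q ^ (-(1 / 4) : ℝ) * NL γ (2 * B) l +
          nm l ^ (1 / 3 : ℝ) * (Q * δ ^ 2) := by ring
      _ ≤ B * 1 * Q ^ (-(1 / 4) : ℝ) * NL γ (2 * B) l + nm l ^ (1 / 3 : ℝ) * (Q * δ ^ 2) := by
          rw [e]; gcongr
      _ = _ := by ring
  · have h2 : nm l ^ (-(2 / 3) : ℝ) ≤ Q ^ (-(1 / 4) : ℝ) :=
      (Real.rpow_le_rpow_of_nonpos hQ0 (not_le.1 h).le (by norm_num)).trans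
        (Real.rpow_le_rpow_of_exponent_le hQ (by norm_num))
    rw [← mul_assoc, e, add_zero]
    gcongr

/-- `K = B² / (a² A)`.  `N l^(1/3) / N l ≤ 1`, and `≤ Q^(-2/3) ≤ Q^(-1/4)` if `Q < N l`, so
`N l^(1/3) ph1 l ≤ C K^(1/3) (B Q^(-1/4) NL l + [N l ≤ Q] N l^(1/3) Q δ²)`.
`A K^(1/3) = (A B)^(2/3) a^(-2/3) ≤ (A B)^(2/3) / a`; `(A / B) K = B / a²`;
`(A / B) (K B)^(2/3) = A^(1/3) B a^(-4/3)`; `(K B)^ε ≤ (B³ / a²)^ε ≤ B^(3 ε) / a`. -/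
theorem od_le {C ε : ℝ} (hC : 0 < C) (hε : 0 < ε) (hε' : ε ≤ 1 / 2) : ∃ C' : ℝ, 0 < C' ∧
    ∀ (γ : O → ℂ) (a A B Q δ : ℝ), 0 < a → a ≤ 1 → 1 ≤ A → 1 ≤ B → 1 ≤ Q → Supp γ B (2 * B) →
      OD a A B (2 * B) 2 (ph1 C B (B ^ 2 / (a ^ 2 * A)) Q δ γ) (ph2 C ε B (B ^ 2 / (a ^ 2 * A)) γ) ≤
        C' * (((A * B) ^ (2 / 3 : ℝ) * Q ^ (-(1 / 4) : ℝ) + B ^ (3 * ε) * (A ^ (1 / 3 : ℝ) * B)) / a ^ 4 *
          N2d γ (2 * B) + A ^ (2 / 3 : ℝ) * B ^ (-(1 / 3) : ℝ) * (Q ^ 3 * δ ^ 2 / a ^ 2)) := by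
  obtain ⟨C₁, hC₁, h₁⟩ := sum_small_label
  refine ⟨C * (2 + C₁), by positivity, fun γ a A B Q δ ha ha1 hA hB hQ hγ => ?_⟩
  have hA0 : 0 < A := by linarith
  have hB0 : 0 < B := by linarith
  have hQ0 : 0 < Q := by linarith
  have e1 := bio_e1 ha ha1 hA0 hB0
  have e2 := bio_e2 ha ha1 hA0 hB0
  have e3 := bio_e3 ha ha1 hA hB0
  have e4 := bio_e4 ha ha1 hA hB0 hε hε'
  obtain ⟨K, hK⟩ : ∃ K, K = B ^ 2 / (a ^ 2 * A) := ⟨_, rfl⟩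
  have hK0 : 0 < K := by rw [hK]; positivity
  rw [← hK] at e1 e2 e3 e4 ⊢
  have hN := N2d_nonneg γ (2 * B)
  have s1 := sum_NL_le hγ
  have s2 := h₁ Q (2 * B) hQ
  obtain ⟨E, hE⟩ : ∃ E, E = (K * B) ^ ε * (K + (K * B) ^ (2 / 3 : ℝ)) := ⟨_, rfl⟩
  have hE0 : 0 ≤ E := by rw [hE]; positivity
  have s3 : ∑ l ∈ sball (2 * B), dn l ^ 2 * (nm l ^ (1 / 3 : ℝ) * ph1 C B K Q δ γ l + ph2 C ε B K γ l) ≤
      C * ((K ^ (1 / 3 : ℝ) * (B * Q ^ (-(1 / 4) : ℝ)) + E) * N2d γ (2 * B) +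
        K ^ (1 / 3 : ℝ) * (Q * δ ^ 2) * (C₁ * Q ^ 2)) := by
    calc _ ≤ ∑ l ∈ sball (2 * B), C * ((K ^ (1 / 3 : ℝ) * (B * Q ^ (-(1 / 4) : ℝ)) + E) *
            (dn l ^ 2 * NL γ (2 * B) l) + K ^ (1 / 3 : ℝ) * (Q * δ ^ 2) *
            (if nm l ≤ Q then dn l ^ 2 * nm l ^ (1 / 3 : ℝ) else 0)) := by
          refine Finset.sum_le_sum fun l hl => ?_
          have b1 := bio_ph1 (C := C) (B := B) (K := K) hC.le hB0.le hK0.le hQ δ γ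
            (mem_sball.1 hl).2.ne_zero
          have b2 : ph2 C ε B K γ l = C * E * NL γ (2 * B) l := by rw [ph2, hE]; ring
          rw [b2]
          refine (mul_le_mul_of_nonneg_left (add_le_add b1 le_rfl) (by positivity)).trans_eq ?_
          split_ifs <;> ring
      _ = C * ((K ^ (1 / 3 : ℝ) * (B * Q ^ (-(1 / 4) : ℝ)) + E) *
            ∑ l ∈ sball (2 * B), dn l ^ 2 * NL γ (2 * B) l + K ^ (1 / 3 : ℝ) * (Q * δ ^ 2) *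
            ∑ l ∈ sball (2 * B), if nm l ≤ Q then dn l ^ 2 * nm l ^ (1 / 3 : ℝ) else 0) := by
          rw [← Finset.mul_sum, Finset.sum_add_distrib, ← Finset.mul_sum, ← Finset.mul_sum]
      _ ≤ _ := by gcongr
  obtain ⟨T₁, hT₁⟩ : ∃ T, T = (A * B) ^ (2 / 3 : ℝ) / a ^ 4 * Q ^ (-(1 / 4) : ℝ) * N2d γ (2 * B) :=
    ⟨_, rfl⟩
  obtain ⟨T₂, hT₂⟩ : ∃ T, T = B ^ (3 * ε) / a * (A ^ (1 / 3 : ℝ) * B / a ^ 3) * N2d γ (2 * B) := ⟨_, rfl⟩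
  obtain ⟨T₃, hT₃⟩ : ∃ T, T = A ^ (2 / 3 : ℝ) * B ^ (-(1 / 3) : ℝ) / a ^ 2 * (Q ^ 3 * δ ^ 2) := ⟨_, rfl⟩
  have p₁ : 0 ≤ T₁ := by rw [hT₁]; positivity
  have p₂ : 0 ≤ T₂ := by rw [hT₂]; positivity
  have p₃ : 0 ≤ T₃ := by rw [hT₃]; positivity
  rw [OD]
  refine (mul_le_mul_of_nonneg_left s3 (by positivity)).trans ?_
  calc _ = C * ((a ^ 2)⁻¹ * (a * A / B) * (K ^ (1 / 3 : ℝ) * B) * Q ^ (-(1 / 4) : ℝ) * N2d γ (2 * B) +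
          (K * B) ^ ε * ((a ^ 2)⁻¹ * (a * A / B) * (K + (K * B) ^ (2 / 3 : ℝ))) * N2d γ (2 * B) +
          C₁ * ((a ^ 2)⁻¹ * (a * A / B) * K ^ (1 / 3 : ℝ) * (Q ^ 3 * δ ^ 2))) := by rw [hE]; ring
    _ ≤ C * ((A * B) ^ (2 / 3 : ℝ) / a ^ 4 * Q ^ (-(1 / 4) : ℝ) * N2d γ (2 * B) +
          B ^ (3 * ε) / a * (2 * (A ^ (1 / 3 : ℝ) * B / a ^ 3)) * N2d γ (2 * B) +
          C₁ * (A ^ (2 / 3 : ℝ) * B ^ (-(1 / 3) : ℝ) / a ^ 2 * (Q ^ 3 * δ ^ 2))) := by gcongr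
    _ = C * (T₁ + 2 * T₂ + C₁ * T₃) := by rw [hT₁, hT₂, hT₃]; ring
    _ ≤ C * ((2 + C₁) * (T₁ + T₂ + T₃)) := by
        refine mul_le_mul_of_nonneg_left ?_ hC.le
        nlinarith [mul_nonneg hC₁.le p₁, mul_nonneg hC₁.le p₂]
    _ = _ := by rw [hT₁, hT₂, hT₃]; field_simp

end Crest.Agent.R12.BI
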