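import Crest.Agent.R12.BI.RowA

/-! Row 12, block BI: the bound for the non-cube rows.  Prefix for helper lemmas: `bib_`. -/

set_option autoImplicit false

namespace Crest.Agent.R12.BI

open Crest.Agent.R17 Crest.Agent.R12 MeasureTheory
open scoped ComplexConjugate

theorem bib_coef {γ : O → ℂ} {B : ℝ} (hB : 0 < B) (hγ : Supp γ B (2 * B)) {z : ℂ} (hz : |z.re| ≤ 3)
    (l h n : O) : ‖γ (l * n) * cb h n * ((nm (l * n) / B : ℝ) : ℂ) ^ z‖ ≤ 8 * ‖γ (l * n)‖ := by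
  by_cases h0 : γ (l * n) = 0
  · simp [h0]
  obtain ⟨-, h1, h2⟩ := hγ _ h0
  have a1 : 1 ≤ nm (l * n) / B := (one_le_div hB).2 h1.le
  have a2 : nm (l * n) / B ≤ 2 := (div_le_iff₀ hB).2 h2
  rw [norm_mul, norm_mul, Complex.norm_cpow_eq_rpow_re_of_pos (by linarith)]
  have a3 : (nm (l * n) / B) ^ z.re ≤ 8 :=
    calc _ ≤ (nm (l * n) / B) ^ (3 : ℝ) := Real.rpow_le_rpow_of_exponent_le a1 (abs_le.1 hz).2
      _ ≤ (2 : ℝ) ^ (3 : ℝ) := Real.rpow_le_rpow (by linarith) a2 (by norm_num)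
      _ = 8 := by norm_num
  have a4 := norm_cb_le h n
  calc _ ≤ ‖γ (l * n)‖ * 1 * 8 := by gcongr
    _ = _ := by ring

/-- `rs_all` in the strip `|Re z| ≤ 3` of `RowBd` -/
theorem bib_all (h2 : StAll) {ε : ℝ} (hε : 0 < ε) : ∃ C : ℝ, 0 < C ∧ ∀ (γ : O → ℂ) (B U Q : ℝ) (l h : O)
    (z : ℂ) (S : Finset O), 1 ≤ B → Supp γ B (2 * B) → PSq l → nm l ≤ 2 * B → 1 ≤ U → 1 / 2 ≤ Q →
    |z.re| ≤ 3 → (∀ k ∈ S, k ≠ 0 ∧ nm k ≤ U ∧ ∀ k₀ m : O, k = k₀ * m ^ 3 → Q < nm k₀) →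
    ∑ k ∈ S, ‖RS γ (2 * B) B l h k z‖ ^ 2 ≤ C * (U ^ (1 / 3 : ℝ) * Q ^ (-(1 / 4) : ℝ) * (B / nm l) +
      (U * B) ^ ε * (U + (U * B) ^ (2 / 3 : ℝ))) * NL γ (2 * B) l := by
  obtain ⟨C, hC⟩ := h2 ε hε
  refine ⟨(|C| + 1) * (4 * 2 ^ ε) * 64, by positivity,
    fun γ B U Q l h z S hB hγ hl hlB hU hQ hz hS => ?_⟩
  have hB0 : 0 < B := by linarith
  have hl1 := one_le_nm hl.ne_zero
  have hl0 : 0 < nm l := by linarith
  set c : O → ℂ := fun n => γ (l * n) * cb h n * ((nm (l * n) / B : ℝ) : ℂ) ^ z with hc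
  have hsupp : Supp c 0 (2 * B / nm l) := fun n hn => by
    have h0 : γ (l * n) ≠ 0 := fun h0 => hn (by simp [hc, h0])
    obtain ⟨a1, -, a2⟩ := hγ _ h0
    have a3 := PSq.of_mul_left hl.1 a1
    refine ⟨a3, nm_pos a3.ne_zero, ?_⟩
    rw [le_div_iff₀ hl0, mul_comm, ← nm_mul]
    exact a2
  have hsub : ball (2 * B / nm l) ⊆ ball (2 * B) := fun n hn =>
    mem_ball.2 ((mem_ball.1 hn).trans (div_le_self (by positivity) hl1))
  have hRS : ∀ k, RS γ (2 * B) B l h k z = ∑ n ∈ ball (2 * B / nm l), c n * cb k n := fun k => by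
    rw [Finset.sum_subset hsub fun n _ hn => ?_]
    · refine Finset.sum_congr rfl fun n _ => ?_
      rw [cb_mul_left, hc]
      ring
    · by_contra h0
      exact hn (mem_ball.2 (hsupp n (left_ne_zero_of_mul h0)).2.2)
  have hN : N2 c (2 * B / nm l) ≤ 64 * NL γ (2 * B) l := by
    rw [NL, Finset.mul_sum]
    refine (Finset.sum_le_sum fun n _ => ?_).trans
      (Finset.sum_le_sum_of_subset_of_nonneg hsub fun n _ _ => by positivity)
    calc ‖c n‖ ^ 2 ≤ (8 * ‖γ (l * n)‖) ^ 2 :=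
          pow_le_pow_left₀ (norm_nonneg _) (bib_coef hB0 hγ hz l h n) 2
      _ = _ := by ring
  have hN0 : 0 ≤ N2 c (2 * B / nm l) := Finset.sum_nonneg fun _ _ => sq_nonneg _
  have hQ0 : 0 < Q := by linarith
  simp only [hRS]
  refine (hC U _ Q S c hU ((one_le_div hl0).2 hlB) hQ hS hsupp).trans ?_
  have hC1 : C ≤ |C| + 1 := (le_abs_self C).trans (le_add_of_nonneg_right zero_le_one)
  have hnum := biw_a_num hU hB hl1 rfl hQ hε
  calc _ ≤ (|C| + 1) * (4 * 2 ^ ε * (U ^ (1 / 3 : ℝ) * Q ^ (-(1 / 4) : ℝ) * (B / nm l) +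
        (U * B) ^ ε * (U + (U * B) ^ (2 / 3 : ℝ)))) * (64 * NL γ (2 * B) l) := by gcongr
    _ = _ := by ring

/-- `rs_sw` in the strip `|Re z| ≤ 3` of `RowBd` -/
theorem bib_sw {γ : O → ℂ} {B Z L δ : ℝ} {l h k₀ m : O} {z : ℂ} (hB : 0 < B) (hγ : Supp γ B (2 * B))
    (hS : SWH γ Z L δ) (hδ : 0 ≤ δ) (hl : Prim l) (hlL : nm l ≤ L) (hk : k₀ * m ^ 3 ≠ 0) (hh : h ≠ 0)
    (hc : ¬ Cube (k₀ * m ^ 3 * h)) (hL : nm (k₀ * h) ≤ L) (hm : nm m ≤ Z) (hz : |z.re| ≤ 3) :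
    ‖RS γ (2 * B) B l h (k₀ * m ^ 3) z‖ ≤ 96 * (1 + |z.im|) * δ := by
  have hm0 : m ≠ 0 := fun h0 => hk (by rw [h0]; ring)
  have e : k₀ * m ^ 3 * h = k₀ * h * m ^ 3 := by ring
  have h1 := hS.mul_bv (bv_cpow hB (show B ≤ 2 * B by linarith) z) l (k₀ * h) m (2 * B) hl hlL
    (mul_ne_zero (left_ne_zero_of_mul hk) hh) (fun h1 => hc (e ▸ (cube_mul_cube_iff hm0).2 h1)) hL hm0 hm
  refine le_trans (le_of_eq (congrArg _ (Finset.sum_congr rfl fun n _ => ?_))) (h1.trans ?_)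
  · by_cases h0 : γ (l * n) = 0
    · simp [h0]
    · rw [e, mul_right_comm]
      exact congrArg (γ (l * n) * · * _) (if_pos (hγ _ h0).2).symm
  · rw [mul_div_cancel_right₀ _ hB.ne']
    have h2 : (2 : ℝ) ^ |z.re| ≤ 8 :=
      (Real.rpow_le_rpow_of_exponent_le one_le_two hz).trans_eq (by norm_num)
    have h3 : Real.log 2 ≤ 1 := Real.log_two_lt_d9.le.trans (by norm_num)
    have h4 := Complex.norm_le_abs_re_add_abs_im z
    have h5 := mul_le_of_le_one_right (norm_nonneg z) h3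
    have h6 := abs_nonneg z.im
    calc _ ≤ 2 * (6 * (1 + |z.im|) * 8) * δ := by
          gcongr
          linarith
      _ = _ := by ring

theorem bib_fin {s T C x y w a b : ℝ} (hT : 1 ≤ T) (hC : 0 ≤ C) (hx : 0 ≤ x) (hw : 0 ≤ w) (ha : a ≤ 6)
    (hb : b ≤ 3) (hyx : y ≤ x) (h : s ≤ C * (a * x + b * w) + T * (121 * 96 ^ 2 * y)) :
    s ≤ T * ((6 * C + 121 * 96 ^ 2) * (x + w / 2)) := by
  have h1 : C * (a * x + b * w) ≤ C * (6 * x + 3 * w) := by gcongr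
  have h2 := le_mul_of_one_le_left (show 0 ≤ C * (6 * x + 3 * w) by positivity) hT
  have h3 := mul_le_mul_of_nonneg_left hyx (zero_le_one.trans hT)
  have h4 := mul_nonneg (zero_le_one.trans hT) hw
  linarith

/-- `U^(1/3) = K^(1/3) (U / K)^(1/3)`, `second_le`, `1 ≤ (1 + |Im z|)²`.
* `Q < N l`: `rs_all` with `Q = 1/2` (`k₀ ≠ 0`, `(1/2)^(-1/4) ≤ 2`).
* `B ≤ U`: `rs_all` with `Q = 1/2`, and `U^(1/3) B / N l ≤ (U B)^(2/3) ≤ (U B)^ε (U + (U B)^(2/3))`.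
* otherwise split `S` by `∀ k₀ m, k = k₀ m³ → Q < N k₀`: `rs_all` with `Q`; for the other rows `card_small` and
  `rs_sw` (`N h ≤ N l⁴ ≤ Q⁴`, `N m³ ≤ U ≤ B ≤ Z³`). -/
theorem row_le (h2 : StAll) {ε : ℝ} (hε : 0 < ε) (hε' : ε ≤ 1 / 2) : ∃ C : ℝ, 0 < C ∧
    ∀ (γ : O → ℂ) (B K Z L Q δ : ℝ), 1 ≤ B → 0 < K → 0 ≤ Z → B ≤ Z ^ 3 → 1 ≤ Q → Q ^ 5 ≤ L → 0 ≤ δ →
      Supp γ B (2 * B) → SWH γ Z L δ →
      RowBd (fun k => ¬ Cube k) γ (2 * B) B K 2 (ph1 C B K Q δ γ) (ph2 C ε B K γ) := by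
  classical
  obtain ⟨C, hC, hr⟩ := bib_all h2 hε
  refine ⟨6 * C + 121 * 96 ^ 2, by positivity, fun γ B K Z L Q δ hB hK hZ hBZ hQ hL hδ hγ hS l h U z S hl hlB
    hh hhl hU hz hk => ?_⟩
  have hl1 := one_le_nm hl.ne_zero
  have hN := NL_nonneg γ (2 * B) l
  have hU0 : 0 < U := by linarith
  have hB0 : 0 < B := by linarith
  have hv : 0 < U / K := by positivity
  have e1 : U ^ (1 / 3 : ℝ) = K ^ (1 / 3 : ℝ) * (U / K) ^ (1 / 3 : ℝ) := by
    rw [← Real.mul_rpow hK.le hv.le, mul_div_cancel₀ _ hK.ne']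
  have e2 : (U * B) ^ ε * (U + (U * B) ^ (2 / 3 : ℝ)) ≤ (K * B) ^ ε * (K + (K * B) ^ (2 / 3 : ℝ)) *
      (2 * ((U / K) ^ (1 / 2 : ℝ) + (U / K) ^ (5 / 2 : ℝ))) := by
    refine (second_le hU0 hK hB0 hε hε').trans (mul_le_mul_of_nonneg_left ?_ (by positivity))
    have h3 := Real.rpow_nonneg hv.le (1 / 2)
    have h4 := Real.rpow_nonneg hv.le (5 / 2)
    rcases le_total (U / K) 1 with h5 | h5
    · linarith [Real.rpow_le_rpow_of_exponent_ge hv h5 (show (1 / 2 : ℝ) ≤ 3 / 2 by norm_num)]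
    · linarith [Real.rpow_le_rpow_of_exponent_le h5 (show (3 / 2 : ℝ) ≤ 5 / 2 by norm_num)]
  have e3 : (1 / 2 : ℝ) ^ (-(1 / 4) : ℝ) ≤ 2 := by
    refine (Real.rpow_le_rpow_of_exponent_ge (by norm_num) (by norm_num)
      (show (-1 : ℝ) ≤ -(1 / 4) by norm_num)).trans_eq ?_
    rw [Real.rpow_neg_one]
    norm_num
  have r1 : ∑ k ∈ S, ‖RS γ (2 * B) B l h k z‖ ^ 2 ≤ C * (U ^ (1 / 3 : ℝ) * 2 * (B / nm l) +
      (U * B) ^ ε * (U + (U * B) ^ (2 / 3 : ℝ))) * NL γ (2 * B) l := by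
    refine (hr γ B U (1 / 2) l h z S hB hγ hl hlB hU le_rfl hz fun k hk' =>
      ⟨(hk k hk').1, (hk k hk').2.1, fun k₀ m e => lt_of_lt_of_le (by norm_num) (one_le_nm fun h0 =>
        (hk k hk').1 (by rw [e, h0, zero_mul]))⟩).trans ?_
    gcongr
  have hT : 1 ≤ (1 + |z.im|) ^ 2 := one_le_pow₀ (by linarith [abs_nonneg z.im])
  have hE : 0 ≤ (U * B) ^ ε * (U + (U * B) ^ (2 / 3 : ℝ)) := by positivity
  refine le_trans (b := (1 + |z.im|) ^ 2 * ((6 * C + 121 * 96 ^ 2) * (U ^ (1 / 3 : ℝ) *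
    (if nm l ≤ Q then B / nm l * Q ^ (-(1 / 4) : ℝ) * NL γ (2 * B) l + Q * δ ^ 2 else B / nm l * NL γ (2 * B) l) +
      (U * B) ^ ε * (U + (U * B) ^ (2 / 3 : ℝ)) * NL γ (2 * B) l / 2))) ?_
    (mul_le_mul_of_nonneg_left ?_ (by positivity))
  swap
  · have h3 := mul_le_mul_of_nonneg_left (mul_le_mul_of_nonneg_right e2 hN)
      (show 0 ≤ 6 * C + 121 * 96 ^ 2 by positivity)
    unfold ph1 ph2
    rw [e1]
    linarith
  have hu := Real.rpow_nonneg hU0.le (1 / 3)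
  have hq := Real.rpow_nonneg (zero_le_one.trans hQ) (-(1 / 4))
  split_ifs with hlQ
  swap
  · exact bib_fin hT hC.le (by positivity) (by positivity) (a := 2) (b := 1) (y := 0) (by norm_num) (by norm_num)
      (by positivity) (r1.trans_eq (by ring))
  rcases le_or_gt B U with hBU | hBU
  · have h3 : U ^ (1 / 3 : ℝ) * (B / nm l) ≤ (U * B) ^ ε * (U + (U * B) ^ (2 / 3 : ℝ)) := by
      have h4 : U ^ (1 / 3 : ℝ) * B ≤ (U * B) ^ (2 / 3 : ℝ) := by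
        rw [Real.mul_rpow hU0.le hB0.le, show (2 / 3 : ℝ) = 1 / 3 + 1 / 3 by norm_num, Real.rpow_add hU0,
          mul_assoc]
        refine mul_le_mul_of_nonneg_left ?_ hu
        calc B = B ^ (1 / 3 : ℝ) * B ^ (1 / 3 + 1 / 3 : ℝ) := by
              rw [← Real.rpow_add hB0]
              norm_num
          _ ≤ _ := by gcongr
      have h5 : 1 ≤ (U * B) ^ ε := Real.one_le_rpow (one_le_mul_of_one_le_of_one_le hU hB) hε.le
      refine le_trans ?_ (le_mul_of_one_le_left (by positivity) h5)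
      have h6 := mul_le_mul_of_nonneg_left (div_le_self hB0.le hl1) hu
      linarith
    refine bib_fin hT hC.le (by positivity) (by positivity) (a := 0) (b := 3) (y := 0) (by norm_num) (by norm_num)
      (by positivity) (r1.trans ?_)
    have h7 := mul_le_mul_of_nonneg_left (mul_le_mul_of_nonneg_right h3 hN) hC.le
    linarith
  · rw [← Finset.sum_filter_add_sum_filter_not S fun k => ∀ k₀ m : O, k = k₀ * m ^ 3 → Q < nm k₀]
    have r2 := hr γ B U Q l h z (S.filter fun k => ∀ k₀ m : O, k = k₀ * m ^ 3 → Q < nm k₀) hB hγ hl hlB hU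
      (by linarith) hz fun k hk' => ⟨(hk k (Finset.mem_filter.1 hk').1).1,
        (hk k (Finset.mem_filter.1 hk').1).2.1, (Finset.mem_filter.1 hk').2⟩
    have h3 : ∀ k ∈ S.filter fun k => ¬ ∀ k₀ m : O, k = k₀ * m ^ 3 → Q < nm k₀,
        k ∈ S ∧ ∃ k₀ m : O, k = k₀ * m ^ 3 ∧ nm k₀ ≤ Q := fun k hk' => by
      obtain ⟨h3, h4⟩ := Finset.mem_filter.1 hk'
      push Not at h4
      exact ⟨h3, h4⟩
    have h4 := card_small hU hQ fun k hk' => ⟨(hk k (h3 k hk').1).1, (hk k (h3 k hk').1).2.1, (h3 k hk').2⟩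
    have h5 := Finset.sum_le_card_nsmul _ (fun k => ‖RS γ (2 * B) B l h k z‖ ^ 2)
      ((96 * (1 + |z.im|) * δ) ^ 2) fun k hk' => by
        obtain ⟨h5, k₀, m, rfl, h6⟩ := h3 k hk'
        obtain ⟨h7, h8, h9⟩ := hk _ h5
        refine pow_le_pow_left₀ (norm_nonneg _) (bib_sw hB0 hγ hS hδ hl.1
          (hlQ.trans ((le_self_pow₀ hQ (by norm_num)).trans hL)) h7 hh.ne_zero h9 (le_trans ?_ hL)
          (le_of_pow_le_pow_left₀ three_ne_zero hZ ?_) hz) 2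
        · have h10 := nm_le_of_dvd hhl (pow_ne_zero 4 hl.ne_zero)
          rw [nm_pow] at h10
          rw [nm_mul, pow_succ' Q 4]
          exact mul_le_mul h6 (h10.trans (pow_le_pow_left₀ (nm_nonneg l) hlQ 4)) (nm_nonneg h)
            (zero_le_one.trans hQ)
        · rw [← nm_pow]
          exact (nm_le_of_dvd (dvd_mul_left _ _) h7).trans (h8.trans (hBU.le.trans hBZ))
    rw [nsmul_eq_mul] at h5
    have h6 := h5.trans (mul_le_mul_of_nonneg_right h4 (sq_nonneg _))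
    refine bib_fin hT hC.le (by positivity) (by positivity) (a := 1) (b := 1) (by norm_num) (by norm_num)
      (y := U ^ (1 / 3 : ℝ) * (Q * δ ^ 2)) ?_ ((add_le_add r2 h6).trans ?_)
    · have h7 : 0 ≤ U ^ (1 / 3 : ℝ) * (B / nm l * Q ^ (-(1 / 4) : ℝ) * NL γ (2 * B) l) := by positivity
      linarith
    · have h7 : 0 ≤ C * (U ^ (1 / 3 : ℝ) * (Q * δ ^ 2)) := by positivity
      linarith

end Crest.Agent.R12.BI
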