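import Crest.Agent.R12.BI.Far
import Crest.Agent.R12.BI.CR
import Crest.Agent.R12.BI.RowB
import Crest.Agent.R12.BI.OD

/-! Row 12, block BI: the dispersion range.  Prefix for helper lemmas: `big_`. -/

set_option autoImplicit false

namespace Crest.Agent.R12.BI

open Crest.Agent.R17 Crest.Agent.R12 MeasureTheory
open scoped ComplexConjugate

/-- `StVar` (`ν = 2`, `X = 2 B`) for `gu a B' γ`, `row_le` (`swh_gu`), `od_le`, `cr_le` -/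
theorem vr_le (h1 : StVar) (h2 : StAll) (k : ℕ) {ε : ℝ} (hε : 0 < ε) (hε' : ε ≤ 1 / 2) : ∃ C : ℝ, 0 < C ∧
    ∀ (γ : O → ℂ) (a A B B' Z L Q δ : ℝ), 1 ≤ A → 1 ≤ B → (A * B) ^ (-(1 / 1000) : ℝ) ≤ a → a ≤ 1 →
      B ≤ (A * B) ^ (501 / 1000 : ℝ) → 0 < B' → 0 ≤ Z → B ≤ Z ^ 3 → 1 ≤ Q → Q ^ 5 ≤ L → 0 ≤ δ →
      Supp γ B (2 * B) → Dv k γ → SWH γ Z L δ →
      VR a A (gu a B' γ) (2 * B) ≤ C * ((a * A + A ^ (2 / 3 : ℝ) +
        A ^ (3 / 4 : ℝ) * B ^ (-(1 / 2) : ℝ) * (a * B' + √B') +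
        ((A * B) ^ (2 / 3 : ℝ) * Q ^ (-(1 / 4) : ℝ) + B ^ (3 * ε) * (A ^ (1 / 3 : ℝ) * B)) / a ^ 4) *
          QU a B' γ (2 * B) + A ^ (2 / 3 : ℝ) * B ^ (-(1 / 3) : ℝ) * (Q ^ 3 * δ ^ 2 / a ^ 2) +
        A ^ (2 / 3 : ℝ) * B ^ (5 / 3 : ℝ) * (A * B) ^ (-(1 / 100) : ℝ)) := by
  obtain ⟨C₁, h₁⟩ := h1 2 k
  obtain ⟨C₂, hC₂, h₂⟩ := row_le h2 hε hε'
  obtain ⟨C₃, hC₃, h₃⟩ := od_le hC₂ hε hε'
  obtain ⟨C₄, hC₄, h₄⟩ := cr_le
  refine ⟨(|C₁| + 1) * (2 + C₄ + 64 * C₃), by positivity,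
    fun γ a A B B' Z L Q δ hA hB ha ha1 hBA hB' hZ hBZ hQ hL hδ hγ hd hS => ?_⟩
  have hA0 : 0 < A := by linarith
  have hB0 : 0 < B := by linarith
  have hQ0 : 0 < Q := by linarith
  have ha0 : 0 < a := (Real.rpow_pos_of_pos (mul_pos hA0 hB0) _).trans_le ha
  have hK : 0 < B ^ 2 / (a ^ 2 * A) := by positivity
  have hs := supp_gu hγ a B'
  have hX : 2 * B ≤ 2 * (A * B) ^ (1 / 1000 : ℝ) * B := by
    have := Real.one_le_rpow (one_le_mul_of_one_le_of_one_le hA hB) (by norm_num : (0 : ℝ) ≤ 1 / 1000)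
    nlinarith
  have h5 := h₁ a A B (2 * B) _ _ _ hA hB ha ha1 hBA hX hs (dv_gu hd a B')
    (ph1_nonneg hC₂.le hB0.le hK.le hQ0.le _ _) (ph2_nonneg hC₂.le hB0.le hK.le _ _)
    (h₂ _ B _ Z L Q _ hB hK hZ hBZ hQ hL (by positivity) hs (swh_gu hS a hB'))
  have h6 := h₃ (gu a B' γ) a A B Q (2 * 4 * δ) ha0 ha1 hA hB hQ hs
  have h7 := h₄ a B' B (2 * B) γ ha0 ha1 hB' hγ
  have h8 := N2_gu_le hγ a B'
  have h9 := N2d_gu_le a B' γ (2 * B)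
  have h10 : √A ≤ A ^ (2 / 3 : ℝ) := by
    rw [Real.sqrt_eq_rpow]
    exact Real.rpow_le_rpow_of_exponent_le hA (by norm_num)
  have hq := QU_nonneg a B' γ (2 * B)
  have hV : 0 ≤ VR a A (gu a B' γ) (2 * B) :=
    tsum_nonneg fun _ => mul_nonneg (LW_pos _ _ _).le (sq_nonneg _)
  have e1 : A ^ (2 / 3 : ℝ) * B ^ (-(1 / 3) : ℝ) * (Q ^ 3 * (2 * 4 * δ) ^ 2 / a ^ 2) =
      64 * (A ^ (2 / 3 : ℝ) * B ^ (-(1 / 3) : ℝ) * (Q ^ 3 * δ ^ 2 / a ^ 2)) := by ring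
  rw [e1] at h6
  have p1 : 0 ≤ a * A := by positivity
  have p2 : 0 ≤ A ^ (2 / 3 : ℝ) := by positivity
  have p3 : 0 ≤ A ^ (3 / 4 : ℝ) * B ^ (-(1 / 2) : ℝ) := by positivity
  have p4 : 0 ≤ a * B' + √B' := by positivity
  have p5 : 0 ≤ ((A * B) ^ (2 / 3 : ℝ) * Q ^ (-(1 / 4) : ℝ) +
      B ^ (3 * ε) * (A ^ (1 / 3 : ℝ) * B)) / a ^ 4 := by positivity
  have p6 : 0 ≤ A ^ (2 / 3 : ℝ) * B ^ (-(1 / 3) : ℝ) * (Q ^ 3 * δ ^ 2 / a ^ 2) := by positivity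
  have p7 : 0 ≤ A ^ (2 / 3 : ℝ) * B ^ (5 / 3 : ℝ) * (A * B) ^ (-(1 / 100) : ℝ) := by positivity
  have p8 := Real.sqrt_nonneg A
  have p9 := N2_nonneg (gu a B' γ) (2 * B)
  have p10 : 0 ≤ CR (gu a B' γ) (2 * B) := Finset.sum_nonneg fun g _ =>
    mul_nonneg (mul_nonneg (Real.rpow_nonneg (nm_nonneg g) _) (dn_nonneg g)) (sq_nonneg _)
  have p11 : 0 ≤ OD a A B (2 * B) 2 (ph1 C₂ B (B ^ 2 / (a ^ 2 * A)) Q (2 * 4 * δ) (gu a B' γ))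
      (ph2 C₂ ε B (B ^ 2 / (a ^ 2 * A)) (gu a B' γ)) :=
    mul_nonneg (by positivity) (Finset.sum_nonneg fun l _ => mul_nonneg (sq_nonneg _) (add_nonneg
      (mul_nonneg (Real.rpow_nonneg (nm_nonneg l) _) (ph1_nonneg hC₂.le hB0.le hK.le hQ0.le _ _ l))
      (ph2_nonneg hC₂.le hB0.le hK.le _ _ l)))
  generalize OD a A B (2 * B) 2 (ph1 C₂ B (B ^ 2 / (a ^ 2 * A)) Q (2 * 4 * δ) (gu a B' γ))
      (ph2 C₂ ε B (B ^ 2 / (a ^ 2 * A)) (gu a B' γ)) = od at h5 h6 p11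
  generalize ((A * B) ^ (2 / 3 : ℝ) * Q ^ (-(1 / 4) : ℝ) +
      B ^ (3 * ε) * (A ^ (1 / 3 : ℝ) * B)) / a ^ 4 = t5 at h6 p5 ⊢
  generalize A ^ (2 / 3 : ℝ) * B ^ (-(1 / 3) : ℝ) * (Q ^ 3 * δ ^ 2 / a ^ 2) = t6 at h6 p6 ⊢
  generalize A ^ (2 / 3 : ℝ) * B ^ (5 / 3 : ℝ) * (A * B) ^ (-(1 / 100) : ℝ) = t7 at h5 p7 ⊢
  generalize A ^ (3 / 4 : ℝ) * B ^ (-(1 / 2) : ℝ) = t3 at h5 p3 ⊢
  generalize A ^ (2 / 3 : ℝ) = t2 at h5 h10 p2 ⊢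
  generalize a * B' + √B' = t4 at h7 p4 ⊢
  generalize a * A = t1 at h5 p1 ⊢
  generalize QU a B' γ (2 * B) = q at h7 h8 h9 hq ⊢
  refine h5.trans ((mul_le_mul_of_nonneg_right ((le_abs_self C₁).trans (le_add_of_nonneg_right
    zero_le_one)) (by positivity)).trans ?_)
  rw [mul_assoc]
  refine mul_le_mul_of_nonneg_left ?_ (by positivity)
  have b1 : (t1 + √A + t2) * N2 (gu a B' γ) (2 * B) ≤ 2 * ((t1 + t2) * q) := by
    calc _ ≤ (t1 + t2 + (t1 + t2)) * q := by gcongr; linarith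
      _ = _ := by ring
  have b2 : t3 * CR (gu a B' γ) (2 * B) ≤ C₄ * (t3 * t4 * q) :=
    (mul_le_mul_of_nonneg_left h7 p3).trans_eq (by ring)
  have b3 : od ≤ C₃ * (t5 * q + 64 * t6) := h6.trans (by gcongr)
  have q1 : 0 ≤ (t1 + t2) * q := by positivity
  have q2 : 0 ≤ t3 * t4 * q := by positivity
  have q3 : 0 ≤ t5 * q := by positivity
  have e2 : (t1 + t2 + t3 * t4 + t5) * q = (t1 + t2) * q + t3 * t4 * q + t5 * q := by ring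
  rw [e2]
  generalize (t1 + t2) * q = x1 at b1 q1 ⊢
  generalize t3 * t4 * q = x2 at b2 q2 ⊢
  generalize t5 * q = x3 at b3 q3 ⊢
  nlinarith [mul_nonneg hC₄.le q1, mul_nonneg hC₄.le q3, mul_nonneg hC₄.le p6, mul_nonneg hC₄.le p7,
    mul_nonneg hC₃.le q1, mul_nonneg hC₃.le q2, mul_nonneg hC₃.le q3, mul_nonneg hC₃.le p7]

theorem big_pow {X : ℝ} (hX : 0 ≤ X) (u : ℝ) {s : ℝ} (h0 : 0 ≤ s) (h1 : s ≤ 1) :
    (X * Real.exp u) ^ s ≤ Real.exp |u| * X ^ s := by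
  rw [Real.mul_rpow hX (Real.exp_pos u).le, mul_comm]
  refine mul_le_mul_of_nonneg_right ?_ (Real.rpow_nonneg hX s)
  calc Real.exp u ^ s ≤ Real.exp |u| ^ s :=
        Real.rpow_le_rpow (Real.exp_pos u).le (Real.exp_le_exp.2 (le_abs_self u)) h0
    _ ≤ Real.exp |u| ^ (1 : ℝ) := Real.rpow_le_rpow_of_exponent_le (Real.one_le_exp (abs_nonneg u)) h1
    _ = _ := Real.rpow_one _

theorem big_sqrt {V t D Q R : ℝ} (ht : 0 ≤ t) (hD : 0 ≤ D) (hQ : 0 ≤ Q) (hR : 0 ≤ R)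
    (h : V ≤ t ^ 2 * (D * Q + R)) : √V ≤ t * (√D * √Q + √R) := by
  rw [Real.sqrt_le_left (by positivity), mul_pow, add_sq, mul_pow, Real.sq_sqrt hD, Real.sq_sqrt hQ,
    Real.sq_sqrt hR]
  refine h.trans (mul_le_mul_of_nonneg_left ?_ (sq_nonneg t))
  have : 0 ≤ 2 * (√D * √Q) * √R := by positivity
  linarith

/-- `BilU_le_VR`, `vr_le` with `ε = e`; every term is at most `exp (2 |u|)` times its value at `u = 0` -/
theorem pt_big (h1 : StVar) (h2 : StAll) (k : ℕ) {e : ℝ} (he : 0 < e) : ∃ C : ℝ, 0 < C ∧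
    ∀ (η Z a A B Y L Q ϑ u : ℝ) (α γ : O → ℂ), Rg η e Z a A B → A * B ≤ Y → Y ≤ 4 * (A * B) →
      2 * Z ^ (-(e / 4)) ≤ a → 1 ≤ Q → Q ^ 5 ≤ L → 0 ≤ ϑ → Supp α A (2 * A) → Supp γ B (2 * B) → Dv k γ →
      SWH γ Z L (B * ϑ) → |u| ≤ e * Real.log Z →
      Pt a Y A B (C * (a * (A + A ^ (3 / 4 : ℝ) * B ^ (1 / 2 : ℝ)) +
          (A * B) ^ (2 / 3 : ℝ) * (Q ^ (-(1 / 4) : ℝ) / a ^ 4 + Z ^ (-e))))
        (C * (A ^ (2 / 3 : ℝ) * B ^ (5 / 3 : ℝ) * (Q ^ 3 * ϑ ^ 2 / a ^ 2 + Z ^ (-e)))) α γ u := by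
  by_cases he2 : e ≤ 1 / 2
  swap
  · exact ⟨1, one_pos, fun η Z a A B Y L Q ϑ u α γ hR => absurd (hR.he'.trans (by norm_num)) he2⟩
  obtain ⟨C, hC, H⟩ := vr_le h1 h2 k he he2
  refine ⟨13 * C, by positivity, ?_⟩
  intro η Z a A B Y L Q ϑ u α γ hR y1 y2 haZ hQ hL hϑ hα hγ dγ hS hu
  have hZ1 : 1 ≤ Z := by linarith [hR.hZ]
  have hZ0 : 0 < Z := by linarith
  have hA0 : 0 < A := by linarith [hR.hA]
  have hB0 : 0 < B := by linarith [hR.hB]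
  have ha0 := hR.a_pos
  have hY0 : 0 < Y := lt_of_lt_of_le (by positivity) y1
  have s1 : (1 : ℝ) ≤ √2 := Real.one_le_sqrt.2 one_le_two
  have s2 : √2 ≤ (2 : ℝ) := Real.sqrt_le_iff.2 ⟨by norm_num, by norm_num⟩
  have s3 : (a / √2) ^ 2 = a ^ 2 / 2 := by rw [div_pow, Real.sq_sqrt (by norm_num)]
  have s4 : (a / √2) ^ 4 = a ^ 4 / 4 := by
    rw [show 4 = 2 * 2 from rfl, pow_mul, s3]; ring
  have haa : a / √2 ≤ a := div_le_self ha0.le s1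
  have haZ' : Z ^ (-(e / 4)) ≤ a / √2 := by
    rw [le_div_iff₀ (by positivity)]
    exact (mul_le_mul_of_nonneg_left s2 (by positivity)).trans (by linarith)
  obtain ⟨n1, n2, n3, n4⟩ := hR.near hu
  have hB' : 0 < Y / A * Real.exp (-u) := by positivity
  have hV := H γ (a / √2) (A * Real.exp u) B (Y / A * Real.exp (-u)) Z L Q (B * ϑ) n1 hR.hB
    (n3.trans haZ') (haa.trans hR.ha1) n2 hB' hZ0.le (by linarith [hR.two_B_le]) hQ hL (by positivity)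
    hγ dγ hS
  refine (BilU_le_VR (by positivity) (by positivity) hα hγ).trans ?_
  rw [mul_comm (Real.exp |u|), mul_assoc]
  refine mul_le_mul_of_nonneg_left (big_sqrt (Real.exp_pos _).le (by positivity) (QU_nonneg _ _ _ _)
    (by positivity) (hV.trans ?_)) (Real.sqrt_nonneg _)
  set t := Real.exp |u| with ht
  have t1 : 1 ≤ t := Real.one_le_exp (abs_nonneg u)
  have t2 : t ≤ t ^ 2 := by nlinarith
  have hB4 : Y / A * Real.exp (-u) ≤ 4 * B * t := by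
    refine mul_le_mul ?_ (Real.exp_le_exp.2 (neg_le_abs u)) (by positivity) (by positivity)
    rw [div_le_iff₀ hA0]
    linarith
  have hsq : √(Y / A * Real.exp (-u)) ≤ 2 * B ^ (1 / 2 : ℝ) * t := by
    rw [Real.sqrt_le_left (by positivity), mul_pow, mul_pow, ← Real.sqrt_eq_rpow, Real.sq_sqrt hB0.le]
    exact hB4.trans (mul_le_mul (by linarith) t2 (by positivity) (by positivity))
  have e1 : B ^ (-(1 / 2) : ℝ) * B = B ^ (1 / 2 : ℝ) := by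
    rw [← Real.rpow_add_one hB0.ne']; norm_num
  have e2 : B ^ (-(1 / 2) : ℝ) * B ^ (1 / 2 : ℝ) = 1 := by
    rw [← Real.rpow_add hB0]; norm_num
  have e3 : B ^ (-(1 / 3) : ℝ) * B ^ 2 = B ^ (5 / 3 : ℝ) := by
    rw [← Real.rpow_natCast, ← Real.rpow_add hB0]; norm_num
  have hE := hR.A34
  set P := (A * B) ^ (2 / 3 : ℝ) with hP
  set z := Z ^ (-e)
  set q := Q ^ (-(1 / 4) : ℝ)
  have hP0 : 0 ≤ P := by positivity
  have hz0 : 0 ≤ z := by positivity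
  have hq0 : 0 ≤ q := by positivity
  have d1 : a / √2 * (A * Real.exp u) ≤ t ^ 2 * (a * A) := by
    calc _ ≤ a * (A * t ^ 2) := by
          gcongr
          exact (Real.exp_le_exp.2 (le_abs_self u)).trans t2
      _ = _ := by ring
  have p23 := big_pow hA0.le u (s := 2 / 3) (by norm_num) (by norm_num)
  have d2 : (A * Real.exp u) ^ (2 / 3 : ℝ) ≤ t ^ 2 * (4 * (P * z)) :=
    p23.trans (mul_le_mul t2 ((Real.rpow_le_rpow_of_exponent_le hR.hA (by norm_num)).trans hE)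
      (by positivity) (by positivity))
  have d3 : (A * Real.exp u) ^ (3 / 4 : ℝ) * B ^ (-(1 / 2) : ℝ) *
      (a / √2 * (Y / A * Real.exp (-u)) + √(Y / A * Real.exp (-u))) ≤
      t ^ 2 * (4 * (a * (A ^ (3 / 4 : ℝ) * B ^ (1 / 2 : ℝ))) + 8 * (P * z)) := by
    calc _ ≤ t * A ^ (3 / 4 : ℝ) * B ^ (-(1 / 2) : ℝ) * (a * (4 * B * t) + 2 * B ^ (1 / 2 : ℝ) * t) := by
          gcongr
          exact big_pow hA0.le u (by norm_num) (by norm_num)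
      _ = t ^ 2 * (4 * (a * (A ^ (3 / 4 : ℝ) * (B ^ (-(1 / 2) : ℝ) * B))) +
            2 * A ^ (3 / 4 : ℝ) * (B ^ (-(1 / 2) : ℝ) * B ^ (1 / 2 : ℝ))) := by ring
      _ ≤ _ := by
          rw [e1, e2]
          exact mul_le_mul_of_nonneg_left (by linarith) (by positivity)
  have d4 : (A * Real.exp u * B) ^ (2 / 3 : ℝ) * q / (a / √2) ^ 4 ≤ t ^ 2 * (4 * (P * (q / a ^ 4))) := by
    rw [s4, mul_right_comm A]
    calc _ ≤ t ^ 2 * P * q / (a ^ 4 / 4) := by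
          gcongr
          exact (big_pow (by positivity) u (by norm_num) (by norm_num)).trans
            (mul_le_mul_of_nonneg_right t2 hP0)
      _ = _ := by field_simp
  have d5 : B ^ (3 * e) * ((A * Real.exp u) ^ (1 / 3 : ℝ) * B) / (a / √2) ^ 4 ≤ t ^ 2 * (P * z) := by
    have u1 : B ^ (3 * e) ≤ Z ^ (2 * e) := by
      refine (Real.rpow_le_rpow hB0.le hR.B_le (by positivity)).trans ?_
      rw [← Real.rpow_mul hZ0.le]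
      exact Real.rpow_le_rpow_of_exponent_le hZ1 (by linarith)
    have u2 : ((a / √2) ^ 4)⁻¹ ≤ Z ^ e := by
      refine inv_le_of_inv_le₀ (by positivity) (le_trans (le_of_eq ?_)
        (pow_le_pow_left₀ (by positivity) haZ' 4))
      rw [← Real.rpow_natCast, ← Real.rpow_mul hZ0.le, ← Real.rpow_neg hZ0.le]
      congr 1; push_cast; ring
    have u3 : 1 ≤ a ^ (-(1 / 3) : ℝ) := Real.one_le_rpow_of_pos_of_le_one_of_nonpos ha0 hR.ha1 (by norm_num)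
    have u4 : Z ^ (3 * e) = Z ^ (2 * e) * Z ^ e := by rw [← Real.rpow_add hZ0]; congr 1; ring
    rw [div_eq_mul_inv]
    calc _ ≤ Z ^ (2 * e) * (t ^ 2 * A ^ (1 / 3 : ℝ) * B) * Z ^ e := by
          gcongr
          exact (big_pow hA0.le u (by norm_num) (by norm_num)).trans
            (mul_le_mul_of_nonneg_right t2 (by positivity))
      _ = t ^ 2 * (Z ^ (3 * e) * (A ^ (1 / 3 : ℝ) * B * 1)) := by rw [u4]; ring
      _ ≤ t ^ 2 * (Z ^ (3 * e) * (A ^ (1 / 3 : ℝ) * B * a ^ (-(1 / 3) : ℝ))) := by gcongr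
      _ ≤ _ := mul_le_mul_of_nonneg_left hR.A13 (by positivity)
  have p23' : (A * Real.exp u) ^ (2 / 3 : ℝ) ≤ t ^ 2 * A ^ (2 / 3 : ℝ) :=
    p23.trans (mul_le_mul_of_nonneg_right t2 (by positivity))
  have r1 : (A * Real.exp u) ^ (2 / 3 : ℝ) * B ^ (-(1 / 3) : ℝ) * (Q ^ 3 * (B * ϑ) ^ 2 / (a / √2) ^ 2) ≤
      t ^ 2 * (2 * (A ^ (2 / 3 : ℝ) * B ^ (5 / 3 : ℝ) * (Q ^ 3 * ϑ ^ 2 / a ^ 2))) := by
    rw [s3, ← e3]
    calc _ ≤ t ^ 2 * A ^ (2 / 3 : ℝ) * B ^ (-(1 / 3) : ℝ) * (Q ^ 3 * (B * ϑ) ^ 2 / (a ^ 2 / 2)) := by gcongr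
      _ = _ := by field_simp
  have r2 : (A * Real.exp u) ^ (2 / 3 : ℝ) * B ^ (5 / 3 : ℝ) * (A * Real.exp u * B) ^ (-(1 / 100) : ℝ) ≤
      t ^ 2 * (A ^ (2 / 3 : ℝ) * B ^ (5 / 3 : ℝ) * z) := by
    calc _ ≤ t ^ 2 * A ^ (2 / 3 : ℝ) * B ^ (5 / 3 : ℝ) * z := by gcongr
      _ = _ := by ring
  have hQU := QU_nonneg (a / √2) (Y / A * Real.exp (-u)) γ (2 * B)
  have w1 : 0 ≤ t ^ 2 * (a * A) := by positivity
  have w2 : 0 ≤ t ^ 2 * (a * (A ^ (3 / 4 : ℝ) * B ^ (1 / 2 : ℝ))) := by positivity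
  have w3 : 0 ≤ t ^ 2 * (P * (q / a ^ 4)) := by positivity
  have w4 : 0 ≤ t ^ 2 * (A ^ (2 / 3 : ℝ) * B ^ (5 / 3 : ℝ) * (Q ^ 3 * ϑ ^ 2 / a ^ 2)) := by positivity
  have w5 : 0 ≤ t ^ 2 * (A ^ (2 / 3 : ℝ) * B ^ (5 / 3 : ℝ) * z) := by positivity
  calc _ ≤ C * (13 * t ^ 2 * (a * (A + A ^ (3 / 4 : ℝ) * B ^ (1 / 2 : ℝ)) + P * (q / a ^ 4 + z)) *
          QU (a / √2) (Y / A * Real.exp (-u)) γ (2 * B) +
        13 * t ^ 2 * (A ^ (2 / 3 : ℝ) * B ^ (5 / 3 : ℝ) * (Q ^ 3 * ϑ ^ 2 / a ^ 2 + z))) := by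
        refine mul_le_mul_of_nonneg_left ?_ hC.le
        rw [add_assoc (_ * QU _ _ _ _)]
        refine add_le_add (mul_le_mul_of_nonneg_right ?_ hQU) (by linarith)
        rw [add_div]
        linarith
    _ = _ := by ring

end Crest.Agent.R12.BI
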