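import Crest.Agent.R12.BI.Defs

/-! Row 12, block BI: moving the centre into `[A B, 4 A B]`.  Prefix for helper lemmas: `bic_`. -/

set_option autoImplicit false

namespace Crest.Agent.R12.BI

open Crest.Agent.R17 Crest.Agent.R12 MeasureTheory
open scoped ComplexConjugate

theorem bic_LW {a Y A B x y : ℝ} (ha : 0 < a) (hY : 0 < Y) (hA : 0 < A) (hB : 0 < B) (hx : 0 < x)
    (hy : 0 < y) : LW a Y (x * y) = Real.exp (-(Real.log (Y / (A * B)) ^ 2 / (2 * a ^ 2))) *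
      ((x / A) ^ (Real.log (Y / (A * B)) / a ^ 2) * (y / B) ^ (Real.log (Y / (A * B)) / a ^ 2) *
        LW a (A * B) (x * y)) := by
  unfold LW
  have e1 : Real.log (x * y / (A * B)) = Real.log (x / A) + Real.log (y / B) := by
    rw [mul_div_mul_comm, Real.log_mul (div_pos hx hA).ne' (div_pos hy hB).ne']
  have e2 : Real.log (x * y / Y) = Real.log (x * y / (A * B)) - Real.log (Y / (A * B)) := by
    rw [← Real.log_div (by positivity) (by positivity)]
    congr 1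
    field_simp
  rw [Real.rpow_def_of_pos (div_pos hx hA), Real.rpow_def_of_pos (div_pos hy hB), ← Real.exp_add,
    ← Real.exp_add, ← Real.exp_add, e2, e1]
  congr 1
  field_simp
  ring

theorem bic_core {a Y A B XA XB : ℝ} {α γ : O → ℂ} (ha : 0 < a) (hY : 0 < Y) (hA : 0 < A) (hB : 0 < B)
    {φ : O → ℝ} {ψ : ℕ → ℝ}
    (hφ : ∀ x, α x ≠ 0 → 0 < nm x ∧ φ x = (nm x / A) ^ (Real.log (Y / (A * B)) / a ^ 2))
    (hψ : ∀ b, γ b ≠ 0 → 0 < nm b ∧ ψ (nN b) = (nm b / B) ^ (Real.log (Y / (A * B)) / a ^ 2)) :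
    Bil a Y α γ XA XB = (Real.exp (-(Real.log (Y / (A * B)) ^ 2 / (2 * a ^ 2))) : ℝ) *
      Bil a (A * B) (fun x => α x * (φ x : ℂ)) (fun b => γ b * (ψ (nN b) : ℂ)) XA XB := by
  unfold Bil
  rw [Finset.mul_sum]
  refine Finset.sum_congr rfl fun x _ => ?_
  rw [Finset.mul_sum]
  refine Finset.sum_congr rfl fun b _ => ?_
  by_cases hx : α x = 0
  · simp [hx]
  by_cases hb : γ b = 0
  · simp [hb]
  beta_reduce
  rw [nm_mul, bic_LW ha hY hA hB (hφ x hx).1 (hψ b hb).1, (hφ x hx).2, (hψ b hb).2,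
    Complex.ofReal_mul, Complex.ofReal_mul, Complex.ofReal_mul]
  ring

theorem bic_s {a Y Y' P : ℝ} (ha : 0 < a) (ha1 : a ≤ 1) (hY : 0 < Y) (hP : 0 < P) (h1 : P ≤ Y')
    (h2 : Y' ≤ 4 * P) :
    Real.exp (-(Real.log (Y / Y') ^ 2 / (2 * a ^ 2))) ≤ 8 * min (P / Y) (Y / P) := by
  have hY' : 0 < Y' := hP.trans_le h1
  have hq : 0 < Y / Y' := div_pos hY hY'
  have key : ∀ t u : ℝ, u ^ 2 = t ^ 2 → Real.exp (-(t ^ 2 / (2 * a ^ 2))) ≤ 2 * Real.exp u := by
    intro t u h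
    have e1 : t ^ 2 / 2 ≤ t ^ 2 / (2 * a ^ 2) := by
      refine div_le_div_of_nonneg_left (sq_nonneg t) (by positivity) ?_
      nlinarith
    have e2 := Real.add_one_le_exp (-(1 / 2) : ℝ)
    have e3 : Real.exp (-(t ^ 2 / (2 * a ^ 2))) * Real.exp (-(1 / 2)) ≤ Real.exp u := by
      rw [← Real.exp_add]
      exact Real.exp_le_exp.2 (by nlinarith [sq_nonneg (u + 1)])
    nlinarith [Real.exp_pos (-(t ^ 2 / (2 * a ^ 2)))]
  rw [mul_min_of_nonneg _ _ (by norm_num)]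
  refine le_min ((key _ (-Real.log (Y / Y')) (by ring)).trans ?_) ((key _ _ rfl).trans ?_)
  · rw [Real.exp_neg, Real.exp_log hq, inv_div]
    have : Y' / Y ≤ 4 * P / Y := div_le_div_of_nonneg_right h2 hY.le
    rw [mul_div_assoc] at this
    linarith
  · rw [Real.exp_log hq]
    have : Y / Y' ≤ Y / P := div_le_div_of_nonneg_left hY.le hP h1
    have := div_pos hY hP
    linarith

theorem bic_norm {r : ℝ} (h : 0 ≤ r ∧ r ≤ 1) : ‖(r : ℂ)‖ ≤ 1 := by
  rw [Complex.norm_real, Real.norm_of_nonneg h.1]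
  exact h.2

/-- `LW_mul_rpow` says `LW a Y x = LW a Y' x * (x / Y') ^ σ * exp (-a² σ² / 2)` when `Y = Y' exp (a² σ)`.
* `Y < A B`: `Y' = A B`, `σ = log (Y / Y') / a² < 0`, `φ x = (max (N x / A) 1) ^ σ`,
  `ψ n = (max (n / B) 1) ^ σ` (antitone, `bv_of_antitone`);
* `4 A B < Y`: `Y' = 4 A B`, `σ > 0`, `φ x = (min (N x / (2 A)) 1) ^ σ`, `ψ n = (min (n / (2 B)) 1) ^ σ`
  (`bv_of_monotone`, `BV.mono`);
* otherwise `Y' = Y`, `φ = ψ = s = 1` (`bv_const`), the minimum is at least `1 / 4`.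
`s = exp (-a² σ² / 2) ≤ exp (-t² / 2) ≤ exp (1/2 - |t|) ≤ 2 exp (-|t|)` with `t = log (Y / Y') = a² σ`.
Compare the two double sums term by term (both terms vanish if `α x = 0` or `γ b = 0`). -/
theorem clamp {a Y A B : ℝ} {α γ : O → ℂ} (ha : 0 < a) (ha1 : a ≤ 1) (hY : 0 < Y) (hA : 0 < A) (hB : 0 < B)
    (hα : Supp α A (2 * A)) (hγ : Supp γ B (2 * B)) :
    ∃ (Y' s : ℝ) (φ : O → ℂ) (ψ : ℕ → ℂ), A * B ≤ Y' ∧ Y' ≤ 4 * (A * B) ∧ (∀ x, ‖φ x‖ ≤ 1) ∧
      (∀ n, ‖ψ n‖ ≤ 1) ∧ BV ψ 2 ∧ 0 ≤ s ∧ s ≤ 8 * min (A * B / Y) (Y / (A * B)) ∧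
      Bil a Y α γ (2 * A) (2 * B) =
        (s : ℂ) * Bil a Y' (fun x => α x * φ x) (fun b => γ b * ψ (nN b)) (2 * A) (2 * B) := by
  have hP : 0 < A * B := mul_pos hA hB
  by_cases c1 : Y < A * B
  · set σ := Real.log (Y / (A * B)) / a ^ 2 with hσ
    have hσ0 : σ ≤ 0 := div_nonpos_of_nonpos_of_nonneg
      (Real.log_nonpos (by positivity) ((div_le_one hP).2 c1.le)) (sq_nonneg a)
    have hb : ∀ r : ℝ, 0 ≤ (max r 1) ^ σ ∧ (max r 1) ^ σ ≤ 1 := fun r =>
      ⟨Real.rpow_nonneg (le_max_of_le_right zero_le_one) _,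
        Real.rpow_le_one_of_one_le_of_nonpos (le_max_right _ _) hσ0⟩
    refine ⟨A * B, _, fun x => ((max (nm x / A) 1 ^ σ : ℝ) : ℂ),
      fun n => ((max (n / B) 1 ^ σ : ℝ) : ℂ), le_rfl, by linarith, fun x => bic_norm (hb _),
      fun n => bic_norm (hb _), ?_, (Real.exp_pos _).le, bic_s ha ha1 hY hP le_rfl (by linarith),
      bic_core ha hY hA hB (fun x hx => ?_) (ψ := fun n => max (n / B) 1 ^ σ) fun b hb' => ?_⟩
    · refine (bv_of_antitone (K := 1) (fun m n hmn => ?_) fun n => hb _).mono (by norm_num)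
      have : (m : ℝ) ≤ n := by exact_mod_cast hmn
      exact Real.rpow_le_rpow_of_nonpos (lt_max_of_lt_right one_pos)
        (max_le_max_right _ (div_le_div_of_nonneg_right this hB.le)) hσ0
    · have := (hα x hx).2.1
      exact ⟨hA.trans this, by rw [max_eq_left ((one_le_div hA).2 this.le)]⟩
    · have := (hγ b hb').2.1
      exact ⟨hB.trans this, by
        change max (nm b / B) 1 ^ σ = _
        rw [max_eq_left ((one_le_div hB).2 this.le)]⟩
  by_cases c2 : 4 * (A * B) < Y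
  · have hA2 : 0 < 2 * A := by linarith
    have hB2 : 0 < 2 * B := by linarith
    have e : 2 * A * (2 * B) = 4 * (A * B) := by ring
    set σ := Real.log (Y / (2 * A * (2 * B))) / a ^ 2 with hσ
    have hσ0 : 0 ≤ σ := div_nonneg
      (Real.log_nonneg ((one_le_div (by positivity)).2 (by linarith))) (sq_nonneg a)
    have hb : ∀ r : ℝ, 0 ≤ r → 0 ≤ (min r 1) ^ σ ∧ (min r 1) ^ σ ≤ 1 := fun r hr =>
      ⟨Real.rpow_nonneg (le_min hr zero_le_one) _,
        Real.rpow_le_one (le_min hr zero_le_one) (min_le_right _ _) hσ0⟩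
    refine ⟨2 * A * (2 * B), _, fun x => ((min (nm x / (2 * A)) 1 ^ σ : ℝ) : ℂ),
      fun n => ((min (n / (2 * B)) 1 ^ σ : ℝ) : ℂ), by linarith, e.le,
      fun x => bic_norm (hb _ (div_nonneg (nm_nonneg _) hA2.le)),
      fun n => bic_norm (hb _ (by positivity)), ?_, (Real.exp_pos _).le,
      bic_s ha ha1 hY hP (by linarith) e.le,
      bic_core ha hY hA2 hB2 (fun x hx => ?_) (ψ := fun n => min (n / (2 * B)) 1 ^ σ) fun b hb' => ?_⟩
    · refine (bv_of_monotone (K := 1) (fun m n hmn => ?_) fun n => hb _ (by positivity)).mono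
        (by norm_num)
      have : (m : ℝ) ≤ n := by exact_mod_cast hmn
      exact Real.rpow_le_rpow (le_min (by positivity) zero_le_one)
        (min_le_min_right _ (div_le_div_of_nonneg_right this hB2.le)) hσ0
    · exact ⟨hA.trans (hα x hx).2.1, by rw [min_eq_left ((div_le_one hA2).2 (hα x hx).2.2)]⟩
    · exact ⟨hB.trans (hγ b hb').2.1, by
        change min (nm b / (2 * B)) 1 ^ σ = _
        rw [min_eq_left ((div_le_one hB2).2 (hγ b hb').2.2)]⟩
  · rw [not_lt] at c1 c2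
    refine ⟨Y, 1, fun _ => 1, fun _ => 1, c1, c2, by simp, by simp, (bv_const 1).mono (by simp),
      zero_le_one, ?_, by simp⟩
    have := bic_s ha ha1 hY hP c1 c2
    simpa [hY.ne'] using this

/-- `min r r⁻¹ * r ^ (5/6) ≤ 1` -/
theorem min_mul_le {Y P : ℝ} (hY : 0 < Y) (hP : 0 < P) :
    min (P / Y) (Y / P) * P ^ (5 / 6 : ℝ) ≤ Y ^ (5 / 6 : ℝ) := by
  rcases le_total P Y with h | h
  · refine le_trans (mul_le_of_le_one_left (by positivity) ?_) (Real.rpow_le_rpow hP.le h (by norm_num))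
    exact min_le_of_left_le ((div_le_one hY).2 h)
  · have h1 : Y / P ≤ (Y / P) ^ (5 / 6 : ℝ) :=
      Real.self_le_rpow_of_le_one (by positivity) ((div_le_one hP).2 h) (by norm_num)
    calc _ ≤ (Y / P) ^ (5 / 6 : ℝ) * P ^ (5 / 6 : ℝ) :=
          mul_le_mul_of_nonneg_right ((min_le_right _ _).trans h1) (by positivity)
      _ = _ := by rw [← Real.mul_rpow (by positivity) hP.le, div_mul_cancel₀ _ hP.ne']

theorem N2_mul_le (α : O → ℂ) {φ : O → ℂ} (h : ∀ x, ‖φ x‖ ≤ 1) (X : ℝ) :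
    N2 (fun x => α x * φ x) X ≤ N2 α X := by
  refine Finset.sum_le_sum fun x _ => pow_le_pow_left₀ (norm_nonneg _) ?_ 2
  rw [norm_mul]
  exact mul_le_of_le_one_right (norm_nonneg _) (h x)

theorem N2d_mul_le (α : O → ℂ) {φ : O → ℂ} (h : ∀ x, ‖φ x‖ ≤ 1) (X : ℝ) :
    N2d (fun x => α x * φ x) X ≤ N2d α X := by
  refine Finset.sum_le_sum fun x _ => mul_le_mul_of_nonneg_right
    (pow_le_pow_left₀ (norm_nonneg _) ?_ 2) (by positivity)
  rw [norm_mul]
  exact mul_le_of_le_one_right (norm_nonneg _) (h x)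

end Crest.Agent.R12.BI
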