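import Crest.Agent.R12.Base.All

/-! Row 12, block BI (owner helper70): definitions.  FROZEN.
Plan: `clamp` moves the centre `Y` into `[A B, 4 A B]`; `Bil_thin` separates the weight; a pointwise bound `Pt`
for every `u` (`pt_far`, `pt_small` from `StL`, `pt_big` from `StVar`, `StAll`) is integrated by `int_le`. -/

set_option autoImplicit false

namespace Crest.Agent.R12.BI

open Crest.Agent.R17 Crest.Agent.R12 MeasureTheory
open scoped ComplexConjugate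

/-- weighted square norm of the rows -/
noncomputable def PU (a A : ℝ) (α : O → ℂ) (X : ℝ) : ℝ := ∑ x ∈ ball X, ‖α x‖ ^ 2 * LW a A (nm x)

/-- weighted square norm of the columns -/
noncomputable def QU (a B : ℝ) (γ : O → ℂ) (X : ℝ) : ℝ :=
  ∑ b ∈ ball X, ‖γ b‖ ^ 2 * dn b ^ 4 * LW a B (nm b)

/-- the thin columns -/
noncomputable def gu (a B : ℝ) (γ : O → ℂ) : O → ℂ := fun b => γ b * (LW a B (nm b) : ℂ)

/-- square norm of the columns with label `l` -/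
noncomputable def NL (γ : O → ℂ) (X : ℝ) (l : O) : ℝ := ∑ n ∈ ball X, ‖γ (l * n)‖ ^ 2

noncomputable def ph1 (C B K Q δ : ℝ) (γ : O → ℂ) (l : O) : ℝ :=
  C * K ^ (1 / 3 : ℝ) * (if nm l ≤ Q then B / nm l * Q ^ (-(1 / 4) : ℝ) * NL γ (2 * B) l + Q * δ ^ 2
    else B / nm l * NL γ (2 * B) l)

noncomputable def ph2 (C ε B K : ℝ) (γ : O → ℂ) (l : O) : ℝ :=
  C * (K * B) ^ ε * (K + (K * B) ^ (2 / 3 : ℝ)) * NL γ (2 * B) l

/-- the range of the parameters -/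
structure Rg (η e Z a A B : ℝ) : Prop where
  he : 0 < e
  he' : e ≤ 1 / 2000
  hη : 20 * e ≤ η
  hZ : 2 ≤ Z
  ha : Z ^ (-η) ≤ a
  ha1 : a ≤ 1
  hA : 1 ≤ A
  hB : 1 ≤ B
  hAB : A ≤ 4 * B ^ 2
  hBZ : B ≤ Z ^ (1 / 2 - η)
  lo : Z ^ (1 - e) ≤ A * B
  hi : A * B ≤ Z ^ (1 + e)

/-- the pointwise bound for the separated form -/
def Pt (a Y A B D R : ℝ) (α γ : O → ℂ) (u : ℝ) : Prop :=
  ‖BilU (a / √2) (A * Real.exp u) (Y / A * Real.exp (-u)) α γ (2 * A) (2 * B)‖ ≤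
    Real.exp |u| * √(PU (a / √2) (A * Real.exp u) α (2 * A)) *
      (√D * √(QU (a / √2) (Y / A * Real.exp (-u)) γ (2 * B)) + √R)

theorem Pt.mono {a Y A B D R D' R' : ℝ} {α γ : O → ℂ} {u : ℝ} (h : Pt a Y A B D R α γ u) (hD : D ≤ D')
    (hR : R ≤ R') : Pt a Y A B D' R' α γ u := by
  refine le_trans h ?_
  gcongr

theorem PU_nonneg (a A : ℝ) (α : O → ℂ) (X : ℝ) : 0 ≤ PU a A α X :=
  Finset.sum_nonneg fun _ _ => mul_nonneg (sq_nonneg _) (LW_pos _ _ _).le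

theorem QU_nonneg (a B : ℝ) (γ : O → ℂ) (X : ℝ) : 0 ≤ QU a B γ X :=
  Finset.sum_nonneg fun _ _ => mul_nonneg (by positivity) (LW_pos _ _ _).le

theorem NL_nonneg (γ : O → ℂ) (X : ℝ) (l : O) : 0 ≤ NL γ X l := Finset.sum_nonneg fun _ _ => sq_nonneg _

theorem norm_gu (a B : ℝ) (γ : O → ℂ) (b : O) : ‖gu a B γ b‖ = ‖γ b‖ * LW a B (nm b) := by
  rw [gu, norm_mul, Complex.norm_real, Real.norm_of_nonneg (LW_pos _ _ _).le]

theorem supp_gu {γ : O → ℂ} {B X : ℝ} (h : Supp γ B X) (a B' : ℝ) : Supp (gu a B' γ) B X := h.mul _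

theorem dv_gu {γ : O → ℂ} {k : ℕ} (h : Dv k γ) (a B' : ℝ) : Dv k (gu a B' γ) :=
  h.mul fun _ => by
    rw [Complex.norm_real, Real.norm_of_nonneg (LW_pos _ _ _).le]; exact LW_le_one _ _ _

theorem swh_gu {γ : O → ℂ} {Z L δ B' : ℝ} (h : SWH γ Z L δ) (a : ℝ) (hB : 0 < B') :
    SWH (gu a B' γ) Z L (2 * 4 * δ) := by
  have e : gu a B' γ = fun b => γ b * (fun n : ℕ => (LW a B' n : ℂ)) (nN b) := rfl
  rw [e]
  exact SWH.mul_bv (ψ := fun n : ℕ => (LW a B' n : ℂ)) h (bv_LW a hB)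

theorem N2d_gu_le (a B : ℝ) (γ : O → ℂ) (X : ℝ) : N2d (gu a B γ) X ≤ QU a B γ X := by
  refine Finset.sum_le_sum fun b _ => ?_
  have h0 := (LW_pos a B (nm b)).le
  have h1 := LW_le_one a B (nm b)
  rw [norm_gu]
  calc (‖γ b‖ * LW a B (nm b)) ^ 2 * dn b ^ 4
      = ‖γ b‖ ^ 2 * dn b ^ 4 * LW a B (nm b) * LW a B (nm b) := by ring
    _ ≤ _ := mul_le_of_le_one_right (by positivity) h1

theorem N2_gu_le {γ : O → ℂ} {B₀ X : ℝ} (h : Supp γ B₀ X) (a B : ℝ) : N2 (gu a B γ) X ≤ QU a B γ X :=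
  (N2_le_N2d (supp_gu h a B)).trans (N2d_gu_le a B γ X)

theorem ph1_nonneg {C B K Q : ℝ} (hC : 0 ≤ C) (hB : 0 ≤ B) (hK : 0 ≤ K) (hQ : 0 ≤ Q) (δ : ℝ) (γ : O → ℂ)
    (l : O) : 0 ≤ ph1 C B K Q δ γ l := by
  have := NL_nonneg γ (2 * B) l
  have := nm_nonneg l
  unfold ph1
  split_ifs <;> positivity

theorem ph2_nonneg {C B K : ℝ} (hC : 0 ≤ C) (hB : 0 ≤ B) (hK : 0 ≤ K) (ε : ℝ) (γ : O → ℂ) (l : O) :
    0 ≤ ph2 C ε B K γ l := by
  have := NL_nonneg γ (2 * B) l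
  unfold ph2
  positivity

end Crest.Agent.R12.BI
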