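import Crest.Agent.R12.BI.Int
import Crest.Agent.R12.BI.Arith

/-! Row 12, block BI: trivial bounds.  Prefix for helper lemmas: `bif_`. -/

set_option autoImplicit false

namespace Crest.Agent.R12.BI

open Crest.Agent.R17 Crest.Agent.R12 MeasureTheory
open scoped ComplexConjugate

open Classical in
theorem bif_cs (S : Finset O) (f : O → ℂ) (w d : O → ℝ) (hw : ∀ b, 0 ≤ w b) (hd0 : ∀ b, 0 ≤ d b)
    (hd : ∀ b, f b ≠ 0 → 1 ≤ d b) {M : ℝ} (hM : ∑ b ∈ S.filter (fun b => f b ≠ 0), w b ≤ M) :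
    ∑ b ∈ S, ‖f b‖ * w b ≤ √M * √(∑ b ∈ S, ‖f b‖ ^ 2 * d b * w b) := by
  have e : ∑ b ∈ S, ‖f b‖ * w b = ∑ b ∈ S.filter (fun b => f b ≠ 0), √(w b) * (‖f b‖ * √(w b)) := by
    rw [Finset.sum_filter]
    refine Finset.sum_congr rfl fun b _ => ?_
    by_cases h : f b = 0
    · simp [h]
    · rw [if_pos h, mul_left_comm, Real.mul_self_sqrt (hw b)]
  rw [e]
  refine (Real.sum_mul_le_sqrt_mul_sqrt _ _ _).trans ?_
  refine mul_le_mul (Real.sqrt_le_sqrt ?_) (Real.sqrt_le_sqrt ?_) (Real.sqrt_nonneg _) (Real.sqrt_nonneg _)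
  · refine le_trans (le_of_eq ?_) hM
    exact Finset.sum_congr rfl fun b _ => Real.sq_sqrt (hw b)
  · refine le_trans (Finset.sum_le_sum fun b hb => ?_)
      (Finset.sum_le_sum_of_subset_of_nonneg (Finset.filter_subset _ S) fun b _ _ =>
        mul_nonneg (mul_nonneg (sq_nonneg _) (hd0 b)) (hw b))
    rw [mul_pow, Real.sq_sqrt (hw b)]
    have h1 := hd b (Finset.mem_filter.1 hb).2
    have h2 : ‖f b‖ ^ 2 ≤ ‖f b‖ ^ 2 * d b := le_mul_of_one_le_right (sq_nonneg _) h1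
    exact mul_le_mul_of_nonneg_right h2 (hw b)

theorem bif_one_le {γ : O → ℂ} {B X : ℝ} (h : Supp γ B X) (b : O) (hb : γ b ≠ 0) : 1 ≤ dn b ^ 4 :=
  one_le_pow₀ (one_le_dn (h b hb).1.1.ne_zero)

/-- Cauchy–Schwarz (`Finset.sum_mul_sq_le_sq_mul_sq` or `Real.sum_mul_le_sqrt_mul_sqrt` on the support),
`1 ≤ d(b)`, `sum_LW_le` -/
theorem sum_norm_le : ∃ C : ℝ, 0 < C ∧ ∀ (a B' B X : ℝ) (γ : O → ℂ), 0 < a → a ≤ 1 → 0 < B' → Supp γ B X →
    ∑ b ∈ ball X, ‖γ b‖ * LW a B' (nm b) ≤ C * √(a * B' + √B') * √(QU a B' γ X) := by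
  classical
  obtain ⟨C, hC, H⟩ := sum_LW_le
  refine ⟨√C, Real.sqrt_pos.2 hC, fun a B' B X γ ha ha1 hB' hγ => ?_⟩
  have h := bif_cs (ball X) γ (fun b => LW a B' (nm b)) (fun b => dn b ^ 4) (fun b => (LW_pos _ _ _).le)
    (fun b => pow_nonneg (dn_nonneg b) 4) (bif_one_le hγ)
    (H a B' _ ha (by linarith) hB' fun n hn => (hγ n (Finset.mem_filter.1 hn).2).1.1.ne_zero)
  rw [Real.sqrt_mul hC.le] at h
  exact h

/-- `norm_f0_le`; Cauchy–Schwarz in both variables, `LW_le_exp` for the rows, `LW_le_one` for the columns,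
`card_ball_le` -/
theorem BilU_triv {J : ℝ} (hJ : 0 ≤ J) : ∃ C : ℝ, 0 < C ∧ ∀ (a A B B' u : ℝ) (α γ : O → ℂ), 0 < a → a ≤ 1 →
    1 ≤ A → 1 ≤ B → Supp α A (2 * A) → Supp γ B (2 * B) →
    ‖BilU a (A * Real.exp u) B' α γ (2 * A) (2 * B)‖ ≤
      √(PU a (A * Real.exp u) α (2 * A)) * (√(C * (A * B * Real.exp (-(J * |u|)))) * √(QU a B' γ (2 * B))) := by
  classical
  obtain ⟨C, hC, H⟩ := LW_le_exp hJ
  refine ⟨9 * 22 * 22 * C, by positivity, fun a A B B' u α γ ha ha1 hA hB hα hγ => ?_⟩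
  have hE := Real.exp_pos (-(J * |u|))
  have h1 : ∑ x ∈ (ball (2 * A)).filter (fun x => α x ≠ 0), LW a (A * Real.exp u) (nm x) ≤
      22 * A * (C * Real.exp (-(J * |u|))) := by
    refine (Finset.sum_le_card_nsmul _ _ (C * Real.exp (-(J * |u|))) fun x hx => ?_).trans ?_
    · have hx' := hα x (Finset.mem_filter.1 hx).2
      exact H a A (nm x) u ha ha1 (by linarith) hx'.2.1 hx'.2.2
    · rw [nsmul_eq_mul]
      refine mul_le_mul_of_nonneg_right ?_ (by positivity)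
      have h2 : (((ball (2 * A)).filter (fun x => α x ≠ 0)).card : ℝ) ≤ (ball (2 * A)).card := by
        exact_mod_cast Finset.card_filter_le _ _
      have h3 := card_ball_le (X := 2 * A) (by linarith)
      linarith
  have h2 : ∑ b ∈ (ball (2 * B)).filter (fun b => γ b ≠ 0), LW a B' (nm b) ≤ 22 * B := by
    refine (Finset.sum_le_card_nsmul _ _ 1 fun x _ => LW_le_one _ _ _).trans ?_
    rw [nsmul_eq_mul, mul_one]
    have h2 : (((ball (2 * B)).filter (fun x => γ x ≠ 0)).card : ℝ) ≤ (ball (2 * B)).card := by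
      exact_mod_cast Finset.card_filter_le _ _
    have h3 := card_ball_le (X := 2 * B) (by linarith)
    linarith
  have hP := bif_cs (ball (2 * A)) α (fun x => LW a (A * Real.exp u) (nm x)) (fun _ => 1)
    (fun b => (LW_pos _ _ _).le) (fun _ => zero_le_one) (fun _ _ => le_rfl) h1
  have hQ := bif_cs (ball (2 * B)) γ (fun b => LW a B' (nm b)) (fun b => dn b ^ 4) (fun b => (LW_pos _ _ _).le)
    (fun b => pow_nonneg (dn_nonneg b) 4) (bif_one_le hγ) h2
  simp only [mul_one] at hP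
  have h3 : ‖BilU a (A * Real.exp u) B' α γ (2 * A) (2 * B)‖ ≤
      3 * ((∑ x ∈ ball (2 * A), ‖α x‖ * LW a (A * Real.exp u) (nm x)) *
        ∑ b ∈ ball (2 * B), ‖γ b‖ * LW a B' (nm b)) := by
    rw [Finset.sum_mul_sum, Finset.mul_sum]
    refine (norm_sum_le _ _).trans (Finset.sum_le_sum fun x _ => ?_)
    rw [Finset.mul_sum]
    refine (norm_sum_le _ _).trans (Finset.sum_le_sum fun b _ => ?_)
    rw [norm_mul, norm_mul, norm_mul, norm_mul, Complex.norm_real, Complex.norm_real,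
      Real.norm_of_nonneg (LW_pos _ _ _).le, Real.norm_of_nonneg (LW_pos _ _ _).le, mul_comm 3]
    have := (LW_pos a (A * Real.exp u) (nm x)).le
    have := (LW_pos a B' (nm b)).le
    exact mul_le_mul_of_nonneg_left (norm_f0_le _) (by positivity)
  have h4 : √(9 * 22 * 22 * C * (A * B * Real.exp (-(J * |u|)))) =
      3 * (√(22 * A * (C * Real.exp (-(J * |u|)))) * √(22 * B)) := by
    rw [← Real.sqrt_mul (by positivity), show (3 : ℝ) = √9 by
      rw [show (9 : ℝ) = 3 ^ 2 by norm_num, Real.sqrt_sq (by norm_num)], ← Real.sqrt_mul (by norm_num)]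
    congr 1
    ring
  rw [h4]
  refine h3.trans ?_
  have h5 := mul_le_mul hP hQ (Finset.sum_nonneg fun b _ => mul_nonneg (norm_nonneg _) (LW_pos _ _ _).le)
    (by positivity)
  calc _ ≤ 3 * _ := mul_le_mul_of_nonneg_left h5 (by norm_num)
    _ = _ := by unfold PU QU; ring

/-- `BilU_triv` with `J = 2 / e`, `Rg.far` -/
theorem pt_far {e : ℝ} (he : 0 < e) : ∃ C : ℝ, 0 < C ∧ ∀ (η Z a A B Y u : ℝ) (α γ : O → ℂ),
    Rg η e Z a A B → Supp α A (2 * A) → Supp γ B (2 * B) → e * Real.log Z ≤ |u| →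
    Pt a Y A B (C * ((A * B) ^ (2 / 3 : ℝ) * Z ^ (-e))) 0 α γ u := by
  obtain ⟨C, hC, H⟩ := BilU_triv (J := 2 / e) (by positivity)
  refine ⟨C, hC, fun η Z a A B Y u α γ h hα hγ hu => ?_⟩
  have ha := h.a_pos
  have hs : (1 : ℝ) ≤ √2 := Real.one_le_sqrt.2 (by norm_num)
  have hZ : 0 < Z := by linarith [h.hZ]
  have h1 := H (a / √2) A B (Y / A * Real.exp (-u)) u α γ (by positivity)
    ((div_le_self ha.le hs).trans h.ha1) h.hA h.hB hα hγ
  have h2 : Real.exp (-(2 / e * |u|)) ≤ Z ^ (-2 : ℝ) := by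
    rw [Real.rpow_def_of_pos hZ]
    refine Real.exp_le_exp.2 ?_
    have h3 : 2 / e * (e * Real.log Z) ≤ 2 / e * |u| := mul_le_mul_of_nonneg_left hu (by positivity)
    have h4 : 2 / e * (e * Real.log Z) = 2 * Real.log Z := by field_simp
    linarith
  have hAB : 0 ≤ A * B := mul_nonneg (by linarith [h.hA]) (by linarith [h.hB])
  have h3 : C * (A * B * Real.exp (-(2 / e * |u|))) ≤ C * ((A * B) ^ (2 / 3 : ℝ) * Z ^ (-e)) :=
    mul_le_mul_of_nonneg_left ((mul_le_mul_of_nonneg_left h2 hAB).trans h.far) hC.le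
  have h4 : (1 : ℝ) ≤ Real.exp |u| := Real.one_le_exp (abs_nonneg u)
  unfold Pt
  rw [Real.sqrt_zero, add_zero]
  refine h1.trans ?_
  refine mul_le_mul (le_mul_of_one_le_left (Real.sqrt_nonneg _) h4)
    (mul_le_mul_of_nonneg_right (Real.sqrt_le_sqrt h3) (Real.sqrt_nonneg _)) (by positivity) (by positivity)

end Crest.Agent.R12.BI
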