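import Crest.Agent.R12.BI.Defs

/-! Row 12, block BI: the integral over `u`.  Prefix for helper lemmas: `bii_`. -/

set_option autoImplicit false

namespace Crest.Agent.R12.BI

open Crest.Agent.R17 Crest.Agent.R12 MeasureTheory
open scoped ComplexConjugate

/-- `LW_mono` to `a = 1`; with `t = log (x / A) ∈ (0, 1]`: `(t - u)² / 2 ≥ J |u| - (J + J² / 2)` -/
theorem LW_le_exp {J : ℝ} (hJ : 0 ≤ J) : ∃ C : ℝ, 0 < C ∧ ∀ a A x u : ℝ, 0 < a → a ≤ 1 → 0 < A → A < x →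
    x ≤ 2 * A → LW a (A * Real.exp u) x ≤ C * Real.exp (-(J * |u|)) := by
  refine ⟨Real.exp (J + J ^ 2 / 2), Real.exp_pos _, fun a A x u ha ha1 hA h1 h2 => ?_⟩
  refine (LW_mono ha ha1 _ _).trans ?_
  have h3 : 0 ≤ Real.log (x / A) := Real.log_nonneg ((one_le_div hA).2 h1.le)
  have h4 : Real.log (x / A) ≤ 1 := (Real.log_le_sub_one_of_pos (div_pos (hA.trans h1) hA)).trans
    (by linarith [(div_le_iff₀ hA).2 h2])
  rw [LW, bta_log hA (hA.trans h1), ← Real.exp_add, Real.exp_le_exp]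
  have h5 : |u| ≤ |Real.log (x / A) - u| + 1 := by
    rcases abs_cases u with h | h <;> rcases abs_cases (Real.log (x / A) - u) with h' | h' <;> linarith
  rw [← sq_abs (Real.log (x / A) - u)]
  nlinarith [sq_nonneg (|Real.log (x / A) - u| - J), mul_le_mul_of_nonneg_left h5 hJ]

theorem PU_le {J : ℝ} (hJ : 0 ≤ J) : ∃ C : ℝ, 0 < C ∧ ∀ (a A u : ℝ) (α : O → ℂ), 0 < a → a ≤ 1 → 0 < A →
    Supp α A (2 * A) → PU a (A * Real.exp u) α (2 * A) ≤ C * Real.exp (-(J * |u|)) * N2 α (2 * A) := by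
  obtain ⟨C, hC, h⟩ := LW_le_exp hJ
  refine ⟨C, hC, fun a A u α ha ha1 hA hα => ?_⟩
  rw [PU, N2, Finset.mul_sum]
  refine Finset.sum_le_sum fun x _ => ?_
  by_cases h0 : α x = 0
  · simp [h0]
  rw [mul_comm]
  exact mul_le_mul_of_nonneg_right (h a A _ u ha ha1 hA (hα x h0).2.1 (hα x h0).2.2) (by positivity)

/-- `Bil_thin`, `norm_integral_le_of_norm_le`.  First term: `integral_thin_le` (width `a / √2`, `S`, `T` = the
balls filtered by `α x ≠ 0`, `γ b ≠ 0`, `p x = ‖α x‖²`, `q b = ‖γ b‖² d(b)⁴`, the minimum is `≤ 1`).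
Second term: `PU_le` with `J = 4`, so `exp |u| √PU ≤ C exp (-|u|) √N2` (`integrable_exp_neg_abs`-type lemma, or
`exp (-|u|) ≤ 2 / (1 + u²)` and `integrable_inv_one_add_sq`). -/
theorem int_le : ∃ C : ℝ, 0 < C ∧ ∀ (a Y A B D R : ℝ) (α γ : O → ℂ), 0 < a → a ≤ 1 → 0 < Y → 0 < A →
    0 < B → Supp α A (2 * A) → Supp γ B (2 * B) → (∀ u, Pt a Y A B D R α γ u) →
    ‖Bil a Y α γ (2 * A) (2 * B)‖ ≤ C * √(N2 α (2 * A)) * (√D * √(N2d γ (2 * B)) + √R / a) := by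
  classical
  obtain ⟨C₁, hC₁, e1⟩ := integral_thin_le
  obtain ⟨C₂, hC₂, e2⟩ := PU_le (J := 4) (by norm_num)
  refine ⟨C₁ + √C₂ * (2 * Real.pi), by positivity, fun a Y A B D R α γ ha ha1 hY hA hB hα hγ hPt => ?_⟩
  have h2 : 1 ≤ √2 := Real.one_le_sqrt.2 one_le_two
  have ha' : 0 < a / √2 := by positivity
  have ha2 : a / √2 ≤ a := div_le_self ha.le h2
  obtain ⟨i1, e3⟩ := e1 (a / √2) Y A B ((ball (2 * A)).filter fun x => α x ≠ 0)
    ((ball (2 * B)).filter fun b => γ b ≠ 0) (fun x => ‖α x‖ ^ 2) (fun b => ‖γ b‖ ^ 2 * dn b ^ 4) ha'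
    (ha2.trans ha1) hY hA hB
    (fun x hx => ⟨by positivity, (hα x (Finset.mem_filter.1 hx).2).2⟩)
    (fun b hb => ⟨by positivity, (hγ b (Finset.mem_filter.1 hb).2).2⟩)
  have f1 : ∀ (δ : O → ℂ) (X : ℝ) (f : O → ℝ), (∀ x, δ x = 0 → f x = 0) →
      ∑ x ∈ (ball X).filter fun x => δ x ≠ 0, f x = ∑ x ∈ ball X, f x := fun δ X f hf =>
    Finset.sum_filter_of_ne fun x _ h h' => h (hf x h')
  rw [f1 α _ (fun x => ‖α x‖ ^ 2) fun x h => by simp [h],
    f1 γ _ (fun b => ‖γ b‖ ^ 2 * dn b ^ 4) fun x h => by simp [h]] at e3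
  have f2 : ∀ t : ℝ, ∑ x ∈ (ball (2 * A)).filter fun x => α x ≠ 0, ‖α x‖ ^ 2 * LW (a / √2) t (nm x) =
      PU (a / √2) t α (2 * A) := fun t => f1 α _ _ fun x h => by simp [h]
  have f3 : ∀ t : ℝ, ∑ b ∈ (ball (2 * B)).filter fun b => γ b ≠ 0,
      ‖γ b‖ ^ 2 * dn b ^ 4 * LW (a / √2) t (nm b) = QU (a / √2) t γ (2 * B) :=
    fun t => f1 γ _ _ fun x h => by simp [h]
  simp only [f2, f3] at i1 e3
  have e4 : ∀ u : ℝ, Real.exp |u| * √(PU (a / √2) (A * Real.exp u) α (2 * A)) ≤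
      √C₂ * √(N2 α (2 * A)) * 2 * (1 + u ^ 2)⁻¹ := fun u => by
    refine (mul_le_mul_of_nonneg_left (Real.sqrt_le_sqrt (e2 _ A u α ha' (ha2.trans ha1) hA hα))
      (Real.exp_pos _).le).trans ?_
    rw [Real.sqrt_mul (by positivity), Real.sqrt_mul hC₂.le, ← Real.exp_half]
    have h3 : Real.exp |u| * Real.exp (-(4 * |u|) / 2) ≤ 2 * (1 + u ^ 2)⁻¹ := by
      rw [← Real.exp_add, show |u| + -(4 * |u|) / 2 = -|u| by ring, Real.exp_neg, ← div_eq_mul_inv,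
        inv_eq_one_div, div_le_div_iff₀ (Real.exp_pos _) (by positivity), ← sq_abs u]
      linarith [Real.quadratic_le_exp_of_nonneg (abs_nonneg u), abs_nonneg u]
    calc _ = √C₂ * √(N2 α (2 * A)) * (Real.exp |u| * Real.exp (-(4 * |u|) / 2)) := by ring
      _ ≤ √C₂ * √(N2 α (2 * A)) * (2 * (1 + u ^ 2)⁻¹) := by gcongr
      _ = _ := by ring
  have i2 := integrable_inv_one_add_sq.const_mul (√R * (√C₂ * √(N2 α (2 * A)) * 2))
  have e5 := norm_integral_le_of_norm_le ((i1.const_mul √D).add i2) (.of_forall fun u => (hPt u).trans (by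
    have := mul_le_mul_of_nonneg_left (e4 u) (Real.sqrt_nonneg R)
    simp only [Pi.add_apply]
    linarith))
  simp only [Pi.add_apply] at e5
  rw [integral_add (i1.const_mul _) i2, integral_const_mul, integral_const_mul,
    integral_univ_inv_one_add_sq] at e5
  have h4 : min (A * B / Y) (Y / (A * B)) ≤ 1 := by
    rcases le_total (A * B) Y with h | h
    · exact (min_le_left _ _).trans ((div_le_one hY).2 h)
    · exact (min_le_right _ _).trans ((div_le_one (by positivity)).2 h)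
  have e6 := e3.trans (show _ ≤ C₁ * a * 1 * √(N2 α (2 * A)) * √(N2d γ (2 * B)) by
    unfold N2 N2d
    gcongr)
  have h5 : (a * √(Real.pi / 2))⁻¹ ≤ a⁻¹ := inv_anti₀ ha (le_mul_of_one_le_right ha.le
    (Real.one_le_sqrt.2 (by linarith [Real.pi_gt_three])))
  rw [(Bil_thin ha hY hA α γ _ _).2, norm_mul, Complex.norm_real, Real.norm_of_nonneg (by positivity)]
  refine (mul_le_mul h5 (e5.trans (add_le_add (mul_le_mul_of_nonneg_left e6 (Real.sqrt_nonneg D)) le_rfl))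
    (norm_nonneg _) (by positivity)).trans ?_
  calc _ = C₁ * √(N2 α (2 * A)) * (√D * √(N2d γ (2 * B))) +
        √C₂ * (2 * Real.pi) * √(N2 α (2 * A)) * (√R / a) := by field_simp
    _ ≤ (C₁ + √C₂ * (2 * Real.pi)) * √(N2 α (2 * A)) * (√D * √(N2d γ (2 * B))) +
        (C₁ + √C₂ * (2 * Real.pi)) * √(N2 α (2 * A)) * (√R / a) := by
      gcongr
      · exact le_add_of_nonneg_right (by positivity)
      · exact le_add_of_nonneg_left hC₁.le
    _ = _ := by ring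

end Crest.Agent.R12.BI
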