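import Crest.Agent.R12.BI.Far

/-! Row 12, block BI: very short intervals.  Prefix for helper lemmas: `bis_`. -/

set_option autoImplicit false

namespace Crest.Agent.R12.BI

open Crest.Agent.R17 Crest.Agent.R12 MeasureTheory
open scoped ComplexConjugate

theorem bis_a {a : ℝ} (ha : 0 < a) : 0 < a / √2 ∧ a / √2 ≤ a ∧ a / 2 ≤ a / √2 := by
  have h1 : (1 : ℝ) ≤ √2 := Real.one_le_sqrt.2 (by norm_num)
  have h2 : √2 ≤ (2 : ℝ) := Real.sqrt_le_iff.2 ⟨by norm_num, by norm_num⟩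
  exact ⟨by positivity, div_le_self ha.le h1, by gcongr⟩

theorem bis_sqrt {x y E : ℝ} (hy : 0 ≤ y) (hE : 1 ≤ E) (h : x ≤ y * E) : √x ≤ E * √y := by
  have h1 : √E ≤ E := by
    rw [Real.sqrt_le_iff]; exact ⟨by linarith, by nlinarith⟩
  calc √x ≤ √(y * E) := Real.sqrt_le_sqrt h
    _ = √y * √E := Real.sqrt_mul hy _
    _ ≤ √y * E := by gcongr
    _ = _ := mul_comm _ _

theorem bis_rpow {x y E θ : ℝ} (hx : 0 ≤ x) (hy : 0 ≤ y) (hE : 1 ≤ E) (h : x ≤ y * E) (h0 : 0 ≤ θ)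
    (h1 : θ ≤ 1) : x ^ θ ≤ E * y ^ θ := by
  have h2 : E ^ θ ≤ E := by
    simpa using Real.rpow_le_rpow_of_exponent_le hE h1
  calc x ^ θ ≤ (y * E) ^ θ := by gcongr
    _ = y ^ θ * E ^ θ := Real.mul_rpow hy (by linarith)
    _ ≤ y ^ θ * E := by gcongr
    _ = _ := mul_comm _ _

/-- `a' = a / √2`, `A' = A exp u ≤ A exp |u|`, `1 ≤ A'` (`Rg.near`).  `StL` with `ε = e` for `gu a' B' γ`
(`supp_gu`, `N2_gu_le`, `N2d_gu_le`); `√A ≤ A^(3/4)`, `Rg.A34`, `Rg.BT_rpow_le`, `Rg.BT`, `Rg.A13`. -/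
theorem en_le (h3 : StL) {e : ℝ} (he : 0 < e) : ∃ C : ℝ, 0 < C ∧ ∀ (η Z a A B B' u : ℝ) (γ : O → ℂ),
    Rg η e Z a A B → Supp γ B (2 * B) → |u| ≤ e * Real.log Z →
    EN (a / √2) (A * Real.exp u) (gu (a / √2) B' γ) (2 * B) ≤
      C * Real.exp |u| * (a * A + (A * B) ^ (2 / 3 : ℝ) * (a ^ (1 / 3 : ℝ) + Z ^ (-e))) *
        QU (a / √2) B' γ (2 * B) := by
  obtain ⟨C, hC⟩ := h3 e he
  refine ⟨max C 1 * 8, by positivity, ?_⟩
  intro η Z a A B B' u γ h hγ hu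
  have ha := h.a_pos
  obtain ⟨a0, a1, a2⟩ := bis_a ha
  have hA := h.hA
  have hB := h.hB
  have hZ := h.hZ
  have hA0 : 0 < A := by linarith
  have hB0 : 0 < B := by linarith
  have hZ1 : 1 ≤ Z := by linarith
  have key := hC (a / √2) (A * Real.exp u) B (gu (a / √2) B' γ) a0 (a1.trans h.ha1) (h.near hu).1
    (by linarith) (supp_gu hγ _ _)
  set E := Real.exp |u| with hE
  have hE1 : 1 ≤ E := Real.one_le_exp (abs_nonneg u)
  have hA' : A * Real.exp u ≤ A * E := by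
    have := Real.exp_le_exp.2 (le_abs_self u)
    gcongr
  have hA'0 : 0 < A * Real.exp u := by positivity
  set Q := QU (a / √2) B' γ (2 * B) with hQ
  have hQ0 : 0 ≤ Q := QU_nonneg _ _ _ _
  have n1 : N2 (gu (a / √2) B' γ) (2 * B) ≤ Q := N2_gu_le hγ _ _
  have n2 : N2d (gu (a / √2) B' γ) (2 * B) ≤ Q := N2d_gu_le _ _ _ _
  have n3 := N2_nonneg (gu (a / √2) B' γ) (2 * B)
  have n4 := N2d_nonneg (gu (a / √2) B' γ) (2 * B)
  set W := (A * B) ^ (2 / 3 : ℝ) with hW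
  set z := Z ^ (-e) with hz
  have hW0 : 0 ≤ W := by positivity
  have hz0 : 0 ≤ z := by positivity
  have t1 : a / √2 * (A * Real.exp u) ≤ E * (a * A) := by
    calc a / √2 * (A * Real.exp u) ≤ a * (A * E) := by gcongr
      _ = _ := by ring
  have t2 : √(A * Real.exp u) ≤ E * (4 * (W * z)) := by
    refine (bis_sqrt hA0.le hE1 hA').trans ?_
    gcongr
    refine le_trans ?_ h.A34
    rw [Real.sqrt_eq_rpow]
    exact Real.rpow_le_rpow_of_exponent_le hA (by norm_num)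
  have t3 : (a / √2) ^ (1 / 3 : ℝ) * (A * Real.exp u * B) ^ (2 / 3 : ℝ) ≤ a ^ (1 / 3 : ℝ) * (E * W) := by
    gcongr
    refine bis_rpow (by positivity) (by positivity) hE1 ?_ (by norm_num) (by norm_num)
    calc A * Real.exp u * B ≤ A * E * B := by gcongr
      _ = _ := by ring
  have t4 : (2 * B / (a / √2)) ^ e ≤ Z ^ (3 * e) :=
    h.BT_rpow_le.trans (Real.rpow_le_rpow_of_exponent_le hZ1 (by linarith))
  have t5 : B / (a / √2) ≤ 2 * (B / a) := by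
    calc B / (a / √2) ≤ B / (a / 2) := by gcongr
      _ = _ := by field_simp
  have t6 : (a / √2) ^ (-(1 / 3) : ℝ) ≤ 2 * a ^ (-(1 / 3) : ℝ) := by
    have e8 : (8 : ℝ) ^ (-(1 / 3) : ℝ) = 2⁻¹ := by
      rw [show (8 : ℝ) = 2 ^ (3 : ℝ) by norm_num, ← Real.rpow_mul (by norm_num)]
      norm_num [Real.rpow_neg_one]
    calc (a / √2) ^ (-(1 / 3) : ℝ) ≤ (a / 8) ^ (-(1 / 3) : ℝ) :=
          Real.rpow_le_rpow_of_nonpos (by positivity) (by linarith) (by norm_num)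
      _ = _ := by rw [Real.div_rpow ha.le (by norm_num), e8]; ring
  have t7 : (A * Real.exp u) ^ (1 / 3 : ℝ) ≤ E * A ^ (1 / 3 : ℝ) :=
    bis_rpow hA'0.le hA0.le hE1 hA' (by norm_num) (by norm_num)
  have t8 : (2 * B / (a / √2)) ^ e * (B / (a / √2) +
      (A * Real.exp u) ^ (1 / 3 : ℝ) * B * (a / √2) ^ (-(1 / 3) : ℝ)) ≤ E * (4 * (W * z)) := by
    have b1 := h.BT
    have b2 := h.A13
    rw [← hW, ← hz] at b1 b2
    have b3 : 0 ≤ W * z := by positivity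
    calc (2 * B / (a / √2)) ^ e * (B / (a / √2) +
          (A * Real.exp u) ^ (1 / 3 : ℝ) * B * (a / √2) ^ (-(1 / 3) : ℝ))
        ≤ Z ^ (3 * e) * (2 * (B / a) + (E * A ^ (1 / 3 : ℝ)) * B * (2 * a ^ (-(1 / 3) : ℝ))) := by
          gcongr
      _ = 2 * (Z ^ (3 * e) * (B / a)) +
          2 * E * (Z ^ (3 * e) * (A ^ (1 / 3 : ℝ) * B * a ^ (-(1 / 3) : ℝ))) := by ring
      _ ≤ 2 * (W * z) + 2 * E * (W * z) := by gcongr
      _ ≤ E * (4 * (W * z)) := by nlinarith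
  refine key.trans ?_
  have p1 : 0 ≤ a * A := by positivity
  have p2 : 0 ≤ a ^ (1 / 3 : ℝ) * W := by positivity
  calc C * ((a / √2 * (A * Real.exp u) + √(A * Real.exp u)) * N2 (gu (a / √2) B' γ) (2 * B) +
        (a / √2) ^ (1 / 3 : ℝ) * (A * Real.exp u * B) ^ (2 / 3 : ℝ) * N2d (gu (a / √2) B' γ) (2 * B) +
        (2 * B / (a / √2)) ^ e * (B / (a / √2) +
          (A * Real.exp u) ^ (1 / 3 : ℝ) * B * (a / √2) ^ (-(1 / 3) : ℝ)) * N2 (gu (a / √2) B' γ) (2 * B))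
      ≤ max C 1 * ((E * (a * A) + E * (4 * (W * z))) * Q + a ^ (1 / 3 : ℝ) * (E * W) * Q +
        E * (4 * (W * z)) * Q) := by
        gcongr
        exact le_max_left _ _
    _ = max C 1 * E * (a * A + a ^ (1 / 3 : ℝ) * W + 8 * (W * z)) * Q := by ring
    _ ≤ max C 1 * E * (8 * (a * A) + 8 * (a ^ (1 / 3 : ℝ) * W) + 8 * (W * z)) * Q := by
        have : a * A + a ^ (1 / 3 : ℝ) * W + 8 * (W * z) ≤
            8 * (a * A) + 8 * (a ^ (1 / 3 : ℝ) * W) + 8 * (W * z) := by linarith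
        gcongr
    _ = _ := by ring

/-- `BilU_le_EN`, `sum_le_EN`, `en_le`; the model: `sum_norm_le`, `B' = Y / A exp (-u) ≤ 4 B exp |u|`,
`(A B)^(-1/3) (a A + √A) (a B + √B) ≤ 2 (A B)^(2/3) (a + Z^(-e))` (`Rg.sqrtA`), `a ≤ a^(1/3)` -/
theorem pt_small (h3 : StL) {e : ℝ} (he : 0 < e) : ∃ C : ℝ, 0 < C ∧ ∀ (η Z a A B Y u : ℝ) (α γ : O → ℂ),
    Rg η e Z a A B → A * B ≤ Y → Y ≤ 4 * (A * B) → Supp α A (2 * A) → Supp γ B (2 * B) →
    |u| ≤ e * Real.log Z →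
    Pt a Y A B (C * (a * A + (A * B) ^ (2 / 3 : ℝ) * (a ^ (1 / 3 : ℝ) + Z ^ (-e)))) 0 α γ u := by
  obtain ⟨C1, hC1, h1⟩ := en_le h3 he
  obtain ⟨C2, hC2, h2⟩ := BilU_le_EN
  obtain ⟨C3, hC3, h4⟩ := sum_norm_le
  refine ⟨(√C1 + 3 * (C2 * C3)) ^ 2, by positivity, ?_⟩
  intro η Z a A B Y u α γ h hY1 hY2 hα hγ hu
  have ha := h.a_pos
  have ha1 := h.ha1
  obtain ⟨a0, a1, a2⟩ := bis_a ha
  have hA := h.hA
  have hB := h.hB
  have hZ := h.hZ
  have hA0 : 0 < A := by linarith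
  have hB0 : 0 < B := by linarith
  have hY0 : 0 < Y := lt_of_lt_of_le (by positivity) hY1
  set E := Real.exp |u| with hE
  have hE1 : 1 ≤ E := Real.one_le_exp (abs_nonneg u)
  set A' := A * Real.exp u with hA'
  set B' := Y / A * Real.exp (-u) with hB'
  have hA'0 : 0 < A' := by positivity
  have hB'0 : 0 < B' := by positivity
  have hA'1 : A' ≤ A * E := by
    have := Real.exp_le_exp.2 (le_abs_self u)
    rw [hA']; gcongr
  have hB'1 : B' ≤ 4 * B * E := by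
    have := Real.exp_le_exp.2 (neg_le_abs u)
    have h5 : Y / A ≤ 4 * B := by rw [div_le_iff₀ hA0]; linarith
    rw [hB']; gcongr
  have k1 := h1 η Z a A B B' u γ h hγ hu
  have k2 := h2 (a / √2) A' B' A B (2 * A) (2 * B) α γ a0 (a1.trans ha1) hA'0 hA0 hB0 hα hγ
  have k3 := h4 (a / √2) B' B (2 * B) γ a0 (a1.trans ha1) hB'0 hγ
  set W := (A * B) ^ (2 / 3 : ℝ) with hW
  set z := Z ^ (-e) with hz
  set D := a * A + W * (a ^ (1 / 3 : ℝ) + z) with hD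
  set Q := QU (a / √2) B' γ (2 * B) with hQ
  have hQ0 : 0 ≤ Q := QU_nonneg _ _ _ _
  have hW0 : 0 ≤ W := by positivity
  have hz0 : 0 ≤ z := by positivity
  have hD0 : 0 ≤ D := by positivity
  have s1 : √(∑ x ∈ (pball (2 * A)).filter (fun x => A < nm x),
      LW (a / √2) A' (nm x) * ‖XG (fun b => γ b * (LW (a / √2) B' (nm b) : ℂ)) (2 * B) x‖ ^ 2) ≤
      E * (√C1 * √D * √Q) := by
    rw [← Real.sqrt_mul hC1.le, ← Real.sqrt_mul (by positivity)]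
    refine bis_sqrt (by positivity) hE1 ?_
    refine (sum_le_EN a0 hA'0 _ _ fun x hx => (mem_pball.1 (Finset.mem_filter.1 hx).1).2).trans ?_
    refine k1.trans (le_of_eq ?_)
    ring
  have s2 : a / √2 * A' + √A' ≤ E * (A * (a + z)) := by
    have e1 : a / √2 * A' ≤ a * (A * E) := by gcongr
    have e2 : √A' ≤ E * (A * z) := (bis_sqrt hA0.le hE1 hA'1).trans (by gcongr; exact h.sqrtA)
    nlinarith
  have s3 : a / √2 * B' + √B' ≤ E * (8 * B) := by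
    have e1 : a / √2 * B' ≤ 1 * (4 * B * E) := by gcongr; exact a1.trans ha1
    have e2 : √B' ≤ E * (4 * B) := by
      refine (bis_sqrt (by positivity) hE1 hB'1).trans ?_
      gcongr
      rw [Real.sqrt_le_iff]; exact ⟨by positivity, by nlinarith⟩
    nlinarith
  have s4 : (A * B) ^ (-(1 : ℝ) / 6) * √(a / √2 * A' + √A') * √(a / √2 * B' + √B') ≤ 3 * E * √D := by
    have hAB : 0 < A * B := by positivity
    have e1 : ((A * B) ^ (-(1 : ℝ) / 6)) ^ 2 * (A * B) = W := by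
      rw [← Real.rpow_natCast, ← Real.rpow_mul hAB.le, ← Real.rpow_add_one hAB.ne', hW]
      norm_num
    have e2 : a ≤ a ^ (1 / 3 : ℝ) := by
      simpa using Real.rpow_le_rpow_of_exponent_ge ha ha1 (by norm_num : (1 / 3 : ℝ) ≤ 1)
    have e3 : W * (a + z) ≤ D := by
      have : W * (a + z) ≤ W * (a ^ (1 / 3 : ℝ) + z) := by gcongr
      have : 0 ≤ a * A := by positivity
      linarith
    refine (pow_le_pow_iff_left₀ (by positivity) (by positivity) two_ne_zero).1 ?_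
    rw [mul_pow, mul_pow, Real.sq_sqrt (by positivity), Real.sq_sqrt (by positivity), mul_pow,
      Real.sq_sqrt hD0]
    calc ((A * B) ^ (-(1 : ℝ) / 6)) ^ 2 * (a / √2 * A' + √A') * (a / √2 * B' + √B')
        ≤ ((A * B) ^ (-(1 : ℝ) / 6)) ^ 2 * (E * (A * (a + z))) * (E * (8 * B)) := by gcongr
      _ = 8 * E ^ 2 * (((A * B) ^ (-(1 : ℝ) / 6)) ^ 2 * (A * B) * (a + z)) := by ring
      _ ≤ 9 * E ^ 2 * D := by rw [e1]; gcongr; norm_num
      _ = _ := by ring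
  unfold Pt
  refine k2.trans ?_
  have e0 : √((√C1 + 3 * (C2 * C3)) ^ 2 * D) = (√C1 + 3 * (C2 * C3)) * √D := by
    rw [Real.sqrt_mul (sq_nonneg _), Real.sqrt_sq (by positivity)]
  change _ ≤ E * √(PU (a / √2) A' α (2 * A)) * (√((√C1 + 3 * (C2 * C3)) ^ 2 * D) * √Q + √0)
  rw [Real.sqrt_zero, add_zero, e0, mul_comm E, mul_assoc _ E]
  refine mul_le_mul_of_nonneg_left ?_ (Real.sqrt_nonneg _)
  have s5 : C2 * (A * B) ^ (-(1 : ℝ) / 6) * √(a / √2 * A' + √A') *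
      ∑ b ∈ ball (2 * B), ‖γ b‖ * LW (a / √2) B' (nm b) ≤ C2 * C3 * (3 * E * √D) * √Q := by
    calc C2 * (A * B) ^ (-(1 : ℝ) / 6) * √(a / √2 * A' + √A') *
          ∑ b ∈ ball (2 * B), ‖γ b‖ * LW (a / √2) B' (nm b)
        ≤ C2 * (A * B) ^ (-(1 : ℝ) / 6) * √(a / √2 * A' + √A') *
          (C3 * √(a / √2 * B' + √B') * √Q) := by gcongr
      _ = C2 * C3 * ((A * B) ^ (-(1 : ℝ) / 6) * √(a / √2 * A' + √A') * √(a / √2 * B' + √B')) * √Q := by
          ring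
      _ ≤ _ := by gcongr
  calc _ ≤ E * (√C1 * √D * √Q) + C2 * C3 * (3 * E * √D) * √Q := add_le_add s1 s5
    _ = _ := by ring

end Crest.Agent.R12.BI
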