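import Crest.Agent.R12.BI.Clamp
import Crest.Agent.R12.BI.Small
import Crest.Agent.R12.BI.Big

/-! Row 12, block BI: assembly.  Prefix for helper lemmas: `bim_`. -/

set_option autoImplicit false

namespace Crest.Agent.R12.BI

open Crest.Agent.R17 Crest.Agent.R12 MeasureTheory
open scoped ComplexConjugate

theorem bim_log {Z : ℝ} (h : 3 ≤ Z) : 1 ≤ Real.log Z := by
  rw [Real.le_log_iff_exp_le (by linarith)]
  have := Real.exp_one_lt_d9
  linarith

theorem bim_logpow {c G : ℝ} (hc : 0 < c) (hG : 0 ≤ G) : ∃ C : ℝ, 0 < C ∧ ∀ Z : ℝ, 3 ≤ Z →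
    Real.log Z ^ G ≤ C * Z ^ c := by
  have hε : 0 < c / (G + 1) := by positivity
  refine ⟨((c / (G + 1))⁻¹) ^ (G + 1), by positivity, fun Z hZ => ?_⟩
  have hl := bim_log hZ
  have hZ0 : 0 ≤ Z := by linarith
  calc Real.log Z ^ G ≤ Real.log Z ^ (G + 1) := Real.rpow_le_rpow_of_exponent_le hl (by linarith)
    _ ≤ (Z ^ (c / (G + 1)) / (c / (G + 1))) ^ (G + 1) :=
        Real.rpow_le_rpow (by linarith) (Real.log_le_rpow_div hZ0 hε) (by linarith)
    _ = _ := by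
        rw [div_eq_inv_mul (Z ^ _), Real.mul_rpow (by positivity) (by positivity), ← Real.rpow_mul hZ0,
          div_mul_cancel₀ _ (by positivity)]

/-- the estimate for a centre in `[A B, 4 A B]` -/
theorem core (h1 : StVar) (h2 : StAll) (h3 : StL) (k : ℕ) {e G : ℝ} (he : 0 < e) (hG : 0 ≤ G) :
    ∃ C : ℝ, 0 < C ∧ ∀ (η Z a A B Y : ℝ) (α γ : O → ℂ), Rg η e Z a A B → 3 ≤ Z → A * B ≤ Y →
      Y ≤ 4 * (A * B) → Supp α A (2 * A) → Supp γ B (2 * B) → Dv k γ →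
      SWH γ Z (Real.log Z ^ (520 * G)) (B * (4 / Real.log Z ^ (520 * G))) →
      ‖Bil a Y α γ (2 * A) (2 * B)‖ ≤ C * √(N2 α (2 * A)) *
        (√(a * (A + A ^ (3 / 4 : ℝ) * B ^ (1 / 2 : ℝ))) * √(N2d γ (2 * B)) +
          ((A * B) ^ (1 / 3 : ℝ) * √(N2d γ (2 * B)) + A ^ (1 / 3 : ℝ) * B ^ (5 / 6 : ℝ)) /
            Real.log Z ^ G) := by
  obtain ⟨Ci, hCi, Hi⟩ := int_le
  obtain ⟨Cf, hCf, Hf⟩ := pt_far he
  obtain ⟨Cs, hCs, Hs⟩ := pt_small h3 he
  obtain ⟨Cb, hCb, Hb⟩ := pt_big h1 h2 k he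
  obtain ⟨Cl, hCl, Hl⟩ := bim_logpow (c := e / 12) (G := 14 * G) (by positivity) (by positivity)
  set K := (Cf + Cs + Cb) * (17 + 3 * Cl) + 1 with hK
  have hK1 : 1 ≤ K := le_add_of_nonneg_left (by positivity)
  have hKK : K ≤ K ^ 2 := by nlinarith
  refine ⟨Ci * K, by positivity, ?_⟩
  intro η Z a A B Y α γ hR hZ y1 y2 hα hγ dγ hS
  have hZ0 : 0 < Z := by linarith
  have hA0 : 0 < A := by linarith [hR.hA]
  have hB0 : 0 < B := by linarith [hR.hB]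
  have ha0 := hR.a_pos
  have hY0 : 0 < Y := lt_of_lt_of_le (by positivity) y1
  have hl1 := bim_log hZ
  have hx1 : 1 ≤ Real.log Z ^ G := Real.one_le_rpow hl1 hG
  have hxn : ∀ n : ℕ, Real.log Z ^ ((n : ℝ) * G) = (Real.log Z ^ G) ^ n := fun n => by
    rw [mul_comm, Real.rpow_mul_natCast (by linarith)]
  have hz := Hl Z hZ
  have e14 := hxn 14
  have e520 := hxn 520
  push_cast at e14 e520
  rw [e14] at hz
  rw [e520] at hS
  set x := Real.log Z ^ G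
  have hx0 : 0 < x := by linarith
  have hz14 : Z ^ (-(e / 12)) ≤ Cl / x ^ 14 := by
    rw [Real.rpow_neg hZ0.le, le_div_iff₀ (by positivity), inv_mul_le_iff₀ (by positivity), mul_comm]
    exact hz
  have hz2 : Cl / x ^ 14 ≤ Cl / x ^ 2 :=
    div_le_div_of_nonneg_left hCl.le (by positivity) (pow_le_pow_right₀ hx1 (by norm_num))
  have hze : Z ^ (-e) ≤ Cl / x ^ 14 :=
    (Real.rpow_le_rpow_of_exponent_le (by linarith) (by linarith)).trans hz14
  set M := a * (A + A ^ (3 / 4 : ℝ) * B ^ (1 / 2 : ℝ)) with hM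
  set P := (A * B) ^ (2 / 3 : ℝ) with hP
  have hM0 : 0 ≤ M := by positivity
  have hP0 : 0 ≤ P := by positivity
  have hD : ∀ {C M' t : ℝ}, 0 ≤ C → C ≤ Cf + Cs + Cb → M' ≤ M → t ≤ (17 + 3 * Cl) / x ^ 2 →
      C * (M' + P * t) ≤ K ^ 2 * (M + P / x ^ 2) := by
    intro C M' t hC hC' hM' ht
    calc C * (M' + P * t) ≤ C * ((17 + 3 * Cl) * M + P * ((17 + 3 * Cl) / x ^ 2)) := by
          gcongr
          exact hM'.trans (le_mul_of_one_le_left hM0 (by linarith))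
      _ = C * (17 + 3 * Cl) * (M + P / x ^ 2) := by ring
      _ ≤ _ := by
          refine mul_le_mul_of_nonneg_right (le_trans ?_ hKK) (by positivity)
          rw [hK]
          exact (mul_le_mul_of_nonneg_right hC' (by positivity)).trans (by linarith)
  have hdiv : ∀ {c : ℝ}, c ≤ 17 + 3 * Cl → c / x ^ 2 ≤ (17 + 3 * Cl) / x ^ 2 := fun h => by gcongr
  have far : ∀ R u, e * Real.log Z ≤ |u| → 0 ≤ R → Pt a Y A B (K ^ 2 * (M + P / x ^ 2)) R α γ u := by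
    intro R u hu hR0
    refine (Hf η Z a A B Y u α γ hR hα hγ hu).mono (le_trans (le_of_eq ?_)
      (hD hCf.le (by linarith) hM0 (hze.trans (hz2.trans (hdiv (by linarith)))))) hR0
    rw [zero_add]
  have fin : ∀ R, (∀ u, Pt a Y A B (K ^ 2 * (M + P / x ^ 2)) R α γ u) →
      √R / a ≤ K * (A ^ (1 / 3 : ℝ) * B ^ (5 / 6 : ℝ) / x) →
      ‖Bil a Y α γ (2 * A) (2 * B)‖ ≤ Ci * K * √(N2 α (2 * A)) * (√M * √(N2d γ (2 * B)) +
        ((A * B) ^ (1 / 3 : ℝ) * √(N2d γ (2 * B)) + A ^ (1 / 3 : ℝ) * B ^ (5 / 6 : ℝ)) / x) := by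
    intro R h hR'
    refine (Hi a Y A B _ R α γ ha0 hR.ha1 hY0 hA0 hB0 hα hγ h).trans ?_
    have h4 : √(K ^ 2 * (M + P / x ^ 2)) ≤ K * (√M + (A * B) ^ (1 / 3 : ℝ) / x) := by
      have h5 : P = ((A * B) ^ (1 / 3 : ℝ)) ^ 2 := by
        rw [← Real.rpow_natCast, ← Real.rpow_mul (by positivity)]; norm_num [hP]
      rw [Real.sqrt_le_left (by positivity), mul_pow, add_sq √M, Real.sq_sqrt hM0, div_pow, ← h5]
      have : 0 ≤ 2 * √M * ((A * B) ^ (1 / 3 : ℝ) / x) := by positivity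
      gcongr
      linarith
    calc _ ≤ Ci * √(N2 α (2 * A)) * (K * (√M + (A * B) ^ (1 / 3 : ℝ) / x) * √(N2d γ (2 * B)) +
          K * (A ^ (1 / 3 : ℝ) * B ^ (5 / 6 : ℝ) / x)) := by gcongr
      _ = _ := by ring
  by_cases hbig : (x ^ 6)⁻¹ ≤ a ∧ 2 * Z ^ (-(e / 4)) ≤ a
  · have hai : ∀ n : ℕ, (a ^ n)⁻¹ ≤ x ^ (6 * n) := fun n => by
      rw [pow_mul, ← inv_pow]
      exact pow_le_pow_left₀ (by positivity) (inv_le_of_inv_le₀ (by positivity) hbig.1) n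
    have hQ : (x ^ 104) ^ (-(1 / 4) : ℝ) / a ^ 4 ≤ 1 / x ^ 2 := by
      have e1 : (x ^ 104) ^ (-(1 / 4) : ℝ) = (x ^ 26)⁻¹ := by
        rw [← Real.rpow_natCast, ← Real.rpow_mul hx0.le, ← Real.rpow_natCast, ← Real.rpow_neg hx0.le]
        norm_num
      rw [e1, div_eq_mul_inv]
      calc (x ^ 26)⁻¹ * (a ^ 4)⁻¹ ≤ (x ^ 26)⁻¹ * x ^ (6 * 4) := by gcongr; exact hai 4
        _ = 1 / x ^ 2 := by field_simp
    have hQ2 : (x ^ 104) ^ 3 * (4 / x ^ 520) ^ 2 / a ^ 2 ≤ 16 / x ^ 14 := by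
      rw [div_eq_mul_inv _ (a ^ 2)]
      calc (x ^ 104) ^ 3 * (4 / x ^ 520) ^ 2 * (a ^ 2)⁻¹
          ≤ (x ^ 104) ^ 3 * (4 / x ^ 520) ^ 2 * x ^ (6 * 2) := by gcongr; exact hai 2
        _ = 16 / x ^ 716 := by field_simp; norm_num [mul_comm]
        _ ≤ 16 / x ^ 14 :=
          div_le_div_of_nonneg_left (by norm_num) (by positivity) (pow_le_pow_right₀ hx1 (by norm_num))
    refine fin (Cb * (A ^ (2 / 3 : ℝ) * B ^ (5 / 3 : ℝ) *
      ((x ^ 104) ^ 3 * (4 / x ^ 520) ^ 2 / a ^ 2 + Z ^ (-e)))) (fun u => ?_) ?_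
    · rcases le_total (e * Real.log Z) |u| with hu | hu
      · exact far _ u hu (by positivity)
      · refine (Hb η Z a A B Y _ (x ^ 104) _ u α γ hR y1 y2 hbig.2 (one_le_pow₀ hx1)
          (le_of_eq (by ring)) (by positivity) hα hγ dγ hS hu).mono
          (hD hCb.le (by linarith) le_rfl ((add_le_add hQ (hze.trans hz2)).trans ?_)) le_rfl
        rw [← add_div]
        exact hdiv (by linarith)
    · have h6 : A ^ (2 / 3 : ℝ) * B ^ (5 / 3 : ℝ) = (A ^ (1 / 3 : ℝ) * B ^ (5 / 6 : ℝ)) ^ 2 := by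
        rw [mul_pow, ← Real.rpow_natCast, ← Real.rpow_natCast, ← Real.rpow_mul hA0.le,
          ← Real.rpow_mul hB0.le]
        norm_num
      rw [h6]
      set V := A ^ (1 / 3 : ℝ) * B ^ (5 / 6 : ℝ)
      have hV : 0 ≤ V := by positivity
      have h7 : √(Cb * (V ^ 2 * ((x ^ 104) ^ 3 * (4 / x ^ 520) ^ 2 / a ^ 2 + Z ^ (-e)))) ≤
          K * (V / x ^ 7) := by
        rw [Real.sqrt_le_left (by positivity)]
        calc _ ≤ Cb * (V ^ 2 * (16 / x ^ 14 + Cl / x ^ 14)) := by gcongr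
          _ = Cb * (16 + Cl) * (V / x ^ 7) ^ 2 := by ring
          _ ≤ K ^ 2 * (V / x ^ 7) ^ 2 := by
              refine mul_le_mul_of_nonneg_right (le_trans ?_ hKK) (by positivity)
              rw [hK]
              exact (mul_le_mul (by linarith) (by linarith) (by positivity) (by positivity)).trans
                (le_add_of_nonneg_right zero_le_one)
          _ = _ := by ring
      have h8 := hai 1
      rw [pow_one] at h8
      rw [div_eq_mul_inv]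
      calc _ ≤ K * (V / x ^ 7) * x ^ (6 * 1) := by gcongr
        _ = _ := by field_simp
  · have hsm : a ^ (1 / 3 : ℝ) ≤ (1 + 2 * Cl) / x ^ 2 := by
      rcases not_and_or.1 hbig with h | h
      · calc a ^ (1 / 3 : ℝ) ≤ ((x ^ 6)⁻¹) ^ (1 / 3 : ℝ) := by gcongr; exact (not_le.1 h).le
          _ = 1 / x ^ 2 := by
              rw [Real.inv_rpow (by positivity), ← Real.rpow_natCast, ← Real.rpow_mul hx0.le, one_div,
                ← Real.rpow_natCast]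
              norm_num
          _ ≤ _ := by gcongr; linarith
      · calc a ^ (1 / 3 : ℝ) ≤ (2 * Z ^ (-(e / 4))) ^ (1 / 3 : ℝ) := by gcongr; exact (not_le.1 h).le
          _ = 2 ^ (1 / 3 : ℝ) * Z ^ (-(e / 12)) := by
              rw [Real.mul_rpow (by norm_num) (by positivity), ← Real.rpow_mul hZ0.le]
              congr 2; ring
          _ ≤ 2 * (Cl / x ^ 2) := by
              refine mul_le_mul ?_ (hz14.trans hz2) (by positivity) (by norm_num)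
              exact (Real.rpow_le_rpow_of_exponent_le one_le_two (by norm_num)).trans_eq
                (Real.rpow_one 2)
          _ ≤ _ := by rw [← mul_div_assoc]; gcongr; linarith
    refine fin 0 (fun u => ?_) (by rw [Real.sqrt_zero, zero_div]; positivity)
    rcases le_total (e * Real.log Z) |u| with hu | hu
    · exact far _ u hu le_rfl
    · refine (Hs η Z a A B Y u α γ hR y1 y2 hα hγ hu).mono
        (hD hCs.le (by linarith) ?_ ((add_le_add hsm (hze.trans hz2)).trans ?_)) le_rfl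
      · rw [hM]
        exact mul_le_mul_of_nonneg_left (le_add_of_nonneg_right (by positivity)) ha0.le
      · rw [← add_div]
        exact hdiv (by linarith)

theorem bim_pow {x : ℝ} (h1 : 1 / 2 ≤ x) (h2 : x ≤ 2) (c : ℝ) : x ^ c ≤ 2 ^ |c| := by
  rcases le_total 0 c with hc | hc
  · rw [abs_of_nonneg hc]
    exact Real.rpow_le_rpow (by linarith) h2 hc
  · rw [abs_of_nonpos hc, Real.rpow_neg (by norm_num), ← Real.inv_rpow (by norm_num)]
    exact Real.rpow_le_rpow_of_nonpos (by norm_num) (by linarith) hc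

theorem bim_two {A B w P Q : ℝ} (hA : 0 < A) (hB : 0 < B) (hw : 1 ≤ w) (hP : P ≤ w * A) (hQ : Q ≤ w * B) :
    √P * ((A * B) ^ (1 / 3 : ℝ) * √Q + A ^ (1 / 3 : ℝ) * B ^ (5 / 6 : ℝ)) ≤
      2 * w * (A * B) ^ (5 / 6 : ℝ) := by
  have hw0 : 0 ≤ w := by linarith
  have h1 : √P ≤ √w * A ^ (1 / 2 : ℝ) := by
    rw [← Real.sqrt_eq_rpow, ← Real.sqrt_mul hw0]; exact Real.sqrt_le_sqrt hP
  have h2 : √Q ≤ √w * B ^ (1 / 2 : ℝ) := by
    rw [← Real.sqrt_eq_rpow, ← Real.sqrt_mul hw0]; exact Real.sqrt_le_sqrt hQ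
  have h3 : 1 ≤ √w := Real.one_le_sqrt.2 hw
  have eA : A ^ (5 / 6 : ℝ) = A ^ (1 / 2 : ℝ) * A ^ (1 / 3 : ℝ) := by
    rw [← Real.rpow_add hA]; norm_num
  have eB : B ^ (5 / 6 : ℝ) = B ^ (1 / 2 : ℝ) * B ^ (1 / 3 : ℝ) := by
    rw [← Real.rpow_add hB]; norm_num
  calc √P * ((A * B) ^ (1 / 3 : ℝ) * √Q + A ^ (1 / 3 : ℝ) * B ^ (5 / 6 : ℝ))
      ≤ √w * A ^ (1 / 2 : ℝ) * ((A * B) ^ (1 / 3 : ℝ) * (√w * B ^ (1 / 2 : ℝ)) +
        √w * (A ^ (1 / 3 : ℝ) * B ^ (5 / 6 : ℝ))) := by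
        exact mul_le_mul h1 (add_le_add (by gcongr) (le_mul_of_one_le_left (by positivity) h3))
          (by positivity) (by positivity)
    _ = 2 * (√w * √w) * (A * B) ^ (5 / 6 : ℝ) := by
        rw [Real.mul_rpow hA.le hB.le, Real.mul_rpow hA.le hB.le, eA, eB]; ring
    _ = _ := by rw [Real.mul_self_sqrt hw0]

theorem stBil (h1 : StVar) (h2 : StAll) (h3 : StL) : StBil := by
  intro η k C₃ hη
  set e := min η (1 / 100) / 20 with hedef
  have he : 0 < e := by positivity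
  have he' : e ≤ 1 / 2000 := by have := min_le_right η (1 / 100); linarith
  have heη : 20 * e ≤ η := by have := min_le_left η (1 / 100); linarith
  obtain ⟨C₁, D, hC₁, hD, HN⟩ := N2_le_of_Dv k
  have hc : 0 ≤ max C₃ 0 := le_max_right _ _
  obtain ⟨C₀, hC₀, H0⟩ := core h1 h2 h3 k he (add_nonneg hD hc)
  obtain ⟨Cf, hCf, Hf⟩ := Bil_far k (max C₃ 0) e he
  obtain ⟨Cb, hCb, Hb⟩ := Bil_bdd k
  set c₂ := 16 * C₀ * ((2 * C₁ + 1) * 3 ^ D) + Cf + 9 * Cb * 2 ^ |C₃| with hc₂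
  have hc₂0 : 0 ≤ c₂ := by positivity
  refine ⟨8 * C₀ + c₂, 520 * (D + max C₃ 0), ?_⟩
  intro Y a A B α γ hY ha ha1 hA hB hAB hBY hα hγ dα dγ hS
  have hY0 : 0 < Y := by linarith
  have hA0 : 0 < A := by linarith
  have hB0 : 0 < B := by linarith
  have ha0 : 0 < a := lt_of_lt_of_le (Real.rpow_pos_of_pos hY0 _) ha
  have hl0 : 0 < Real.log Y := Real.log_pos (by linarith)
  have hY56 : 1 ≤ Y ^ (5 / 6 : ℝ) := Real.one_le_rpow (by linarith) (by norm_num)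
  have hlc : 0 < Real.log Y ^ C₃ := Real.rpow_pos_of_pos hl0 _
  set m := min (A * B / Y) (Y / (A * B)) with hm
  have hm0 : 0 ≤ m := by positivity
  set T₁ := m * √(a * (A + A ^ (3 / 4 : ℝ) * B ^ (1 / 2 : ℝ))) * √(N2 α (2 * A)) * √(N2d γ (2 * B))
    with hT₁
  set T₂ := Y ^ (5 / 6 : ℝ) / Real.log Y ^ C₃ with hT₂
  have hT₁0 : 0 ≤ T₁ := by positivity
  have hT₂0 : 0 ≤ T₂ := by positivity
  suffices key : ‖Bil a Y α γ (2 * A) (2 * B)‖ ≤ 8 * C₀ * T₁ + c₂ * T₂ by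
    refine key.trans (le_trans ?_ (le_of_eq (show (8 * C₀ + c₂) * T₁ + (8 * C₀ + c₂) * T₂ = _ by
      rw [hT₁, hT₂]; ring)))
    have := mul_nonneg hc₂0 hT₁0
    have := mul_nonneg hC₀.le hT₂0
    linarith
  have h8 : 0 ≤ 8 * C₀ * T₁ := by positivity
  rcases lt_or_ge Y 3 with h3Y | h3Y
  · have b1 := Hb Y a (2 * A) (2 * B) α γ (by linarith) ha0 ha1 dα dγ
    have b2 : Real.log Y ^ C₃ ≤ 2 ^ |C₃| := by
      refine bim_pow ?_ ?_ _
      · have := Real.log_le_log (by norm_num) hY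
        have := Real.log_two_gt_d9
        linarith
      · have := Real.log_le_sub_one_of_pos hY0
        linarith
    have b3 : 1 ≤ 2 ^ |C₃| * T₂ := by
      rw [hT₂, ← mul_div_assoc, le_div_iff₀ hlc, one_mul]
      exact b2.trans (le_mul_of_one_le_right (by positivity) hY56)
    have b4 : Cb * Y ^ 2 ≤ 9 * Cb * 2 ^ |C₃| * T₂ := by
      calc Cb * Y ^ 2 ≤ Cb * 3 ^ 2 := by gcongr
        _ = 9 * Cb * 1 := by ring
        _ ≤ 9 * Cb * (2 ^ |C₃| * T₂) := by gcongr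
        _ = _ := by ring
    have b5 : 9 * Cb * 2 ^ |C₃| * T₂ ≤ c₂ * T₂ := by
      refine mul_le_mul_of_nonneg_right ?_ hT₂0
      rw [hc₂]
      exact le_add_of_nonneg_left (by positivity)
    linarith
  have hl1 : 1 ≤ Real.log Y := bim_log h3Y
  have hlc' : Real.log Y ^ C₃ ≤ Real.log Y ^ max C₃ 0 :=
    Real.rpow_le_rpow_of_exponent_le hl1 (le_max_left _ _)
  by_cases hfar : A * B ≤ Y ^ (1 - e) ∨ Y ^ (1 + e) ≤ A * B
  · have b1 := Hf Y a A B α γ (by linarith) ha0 ha1 hA0 hB0 hα hγ dα dγ hfar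
    have b2 : Y ^ (-max C₃ 0) ≤ T₂ := by
      rw [hT₂, Real.rpow_neg hY0.le, ← one_div]
      refine div_le_div₀ (by positivity) hY56 hlc (hlc'.trans (Real.rpow_le_rpow hl0.le ?_ hc))
      have := Real.log_le_sub_one_of_pos hY0
      linarith
    have b5 : Cf * T₂ ≤ c₂ * T₂ := by
      refine mul_le_mul_of_nonneg_right ?_ hT₂0
      rw [hc₂]
      exact (le_add_of_nonneg_left (by positivity)).trans (le_add_of_nonneg_right (by positivity))
    have := mul_le_mul_of_nonneg_left b2 hCf.le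
    linarith
  rw [not_or, not_le, not_le] at hfar
  have hR : Rg η e Y a A B := ⟨he, he', heη, hY, ha, ha1, hA, hB, hAB, hBY, hfar.1.le, hfar.2.le⟩
  obtain ⟨Y', s, φ, ψ, y1, y2, hφ, hψ, hBV, hs0, hs, hBil⟩ := clamp ha0 ha1 hY0 hA0 hB0 hα hγ
  have hS' : SWH (fun b => γ b * ψ (nN b)) Y (Real.log Y ^ (520 * (D + max C₃ 0)))
      (B * (4 / Real.log Y ^ (520 * (D + max C₃ 0)))) :=
    (SWH.mul_bv (ψ := ψ) hS hBV).mono le_rfl le_rfl (le_of_eq (by ring))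
  have b1 := H0 η Y a A B Y' _ _ hR h3Y y1 y2 (hα.mul φ) (hγ.mul fun b => ψ (nN b))
    (dγ.mul fun b => hψ _) hS'
  have n1 := Real.sqrt_le_sqrt (N2_mul_le α hφ (2 * A))
  have n2 := Real.sqrt_le_sqrt (N2d_mul_le γ (φ := fun b => ψ (nN b)) (fun b => hψ _) (2 * B))
  have hY3 : 2 ≤ Y ^ 3 := by nlinarith [sq_nonneg Y, pow_pos hY0 2]
  set w := (2 * C₁ + 1) * 3 ^ D * Real.log Y ^ D with hw
  have hw1 : 1 ≤ w := by
    have u1 : (1 : ℝ) ≤ 3 ^ D := Real.one_le_rpow (by norm_num) hD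
    have u2 : 1 ≤ Real.log Y ^ D := Real.one_le_rpow hl1 hD
    exact one_le_mul_of_one_le_of_one_le (one_le_mul_of_one_le_of_one_le (by linarith) u1) u2
  have hlog3 : ∀ X : ℝ, 0 ≤ X → C₁ * (2 * X) * Real.log (Y ^ 3) ^ D ≤ w * X := by
    intro X hX
    rw [Real.log_pow, Real.mul_rpow (by positivity) hl0.le, hw]
    push_cast
    have : 0 ≤ (3 : ℝ) ^ D * Real.log Y ^ D * X := by positivity
    nlinarith
  have m1 := (HN α A (2 * A) (Y ^ 3) hα dα (by positivity) hR.two_A_le hY3).1.trans (hlog3 A hA0.le)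
  have m2 := (HN γ B (2 * B) (Y ^ 3) hγ dγ (by positivity) hR.two_B_le hY3).2.trans (hlog3 B hB0.le)
  have m3 := bim_two hA0 hB0 hw1 m1 m2
  have m4 := min_mul_le hY0 (mul_pos hA0 hB0)
  rw [← hm] at hs m4
  rw [hBil, norm_mul, Complex.norm_real, Real.norm_of_nonneg hs0]
  have hlG : 0 < Real.log Y ^ (D + max C₃ 0) := Real.rpow_pos_of_pos hl0 _
  calc s * ‖Bil a Y' (fun x => α x * φ x) (fun b => γ b * ψ (nN b)) (2 * A) (2 * B)‖
      ≤ 8 * m * (C₀ * √(N2 α (2 * A)) *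
        (√(a * (A + A ^ (3 / 4 : ℝ) * B ^ (1 / 2 : ℝ))) * √(N2d γ (2 * B)) +
          ((A * B) ^ (1 / 3 : ℝ) * √(N2d γ (2 * B)) + A ^ (1 / 3 : ℝ) * B ^ (5 / 6 : ℝ)) /
            Real.log Y ^ (D + max C₃ 0))) := by
        refine mul_le_mul hs (b1.trans ?_) (norm_nonneg _) (by positivity)
        gcongr
    _ = 8 * C₀ * T₁ + 8 * C₀ * m * (√(N2 α (2 * A)) *
          ((A * B) ^ (1 / 3 : ℝ) * √(N2d γ (2 * B)) + A ^ (1 / 3 : ℝ) * B ^ (5 / 6 : ℝ))) /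
            Real.log Y ^ (D + max C₃ 0) := by
        rw [hT₁]; ring
    _ ≤ 8 * C₀ * T₁ + 8 * C₀ * m * (2 * w * (A * B) ^ (5 / 6 : ℝ)) /
            Real.log Y ^ (D + max C₃ 0) := by gcongr
    _ = 8 * C₀ * T₁ + 16 * C₀ * ((2 * C₁ + 1) * 3 ^ D) *
          (m * (A * B) ^ (5 / 6 : ℝ) / Real.log Y ^ max C₃ 0) := by
        rw [hw, Real.rpow_add hl0]
        have := (Real.rpow_pos_of_pos hl0 D).ne'
        have := (Real.rpow_pos_of_pos hl0 (max C₃ 0)).ne'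
        field_simp
        ring
    _ ≤ 8 * C₀ * T₁ + c₂ * T₂ := by
        refine add_le_add le_rfl (mul_le_mul ?_ ?_ (by positivity) hc₂0)
        · rw [hc₂, add_assoc]
          exact le_add_of_nonneg_right (by positivity)
        · exact div_le_div₀ (by positivity) m4 hlc hlc' 

end Crest.Agent.R12.BI
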