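import Crest.Agent.R12.BI.Defs

/-! Row 12, block BI: the dual rows, ingredients.  Prefix for helper lemmas: `biw_`. -/

set_option autoImplicit false

namespace Crest.Agent.R12.BI

open Crest.Agent.R17 Crest.Agent.R12 MeasureTheory
open scoped ComplexConjugate

theorem biw_a_coef {γ : O → ℂ} {B : ℝ} (hB : 0 < B) (hγ : Supp γ B (2 * B)) {z : ℂ} (hz : |z.re| ≤ 2)
    (l h n : O) : ‖γ (l * n) * cb h n * ((nm (l * n) / B : ℝ) : ℂ) ^ z‖ ≤ 4 * ‖γ (l * n)‖ := by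
  by_cases h0 : γ (l * n) = 0
  · simp [h0]
  obtain ⟨-, h1, h2⟩ := hγ _ h0
  have a1 : 1 ≤ nm (l * n) / B := (one_le_div hB).2 h1.le
  have a2 : nm (l * n) / B ≤ 2 := (div_le_iff₀ hB).2 h2
  rw [norm_mul, norm_mul, Complex.norm_cpow_eq_rpow_re_of_pos (by linarith)]
  have a3 : (nm (l * n) / B) ^ z.re ≤ 4 :=
    calc _ ≤ (nm (l * n) / B) ^ (2 : ℝ) := Real.rpow_le_rpow_of_exponent_le a1 (abs_le.1 hz).2
      _ ≤ (2 : ℝ) ^ (2 : ℝ) := Real.rpow_le_rpow (by linarith) a2 (by norm_num)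
      _ = 4 := by norm_num
  have a4 := norm_cb_le h n
  calc _ ≤ ‖γ (l * n)‖ * 1 * 4 := by gcongr
    _ = _ := by ring

theorem biw_a_num {U B M N Q ε : ℝ} (hU : 1 ≤ U) (hB : 1 ≤ B) (hN : 1 ≤ N) (hM : M = 2 * B / N)
    (hQ : 1 / 2 ≤ Q) (hε : 0 < ε) :
    U ^ (1 / 3 : ℝ) * Q ^ (-(3 / 10) : ℝ) * M + (U * M) ^ ε * (U + (U * M) ^ (2 / 3 : ℝ)) ≤
      4 * 2 ^ ε * (U ^ (1 / 3 : ℝ) * Q ^ (-(1 / 4) : ℝ) * (B / N) +
        (U * B) ^ ε * (U + (U * B) ^ (2 / 3 : ℝ))) := by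
  have hQ0 : 0 < Q := by linarith
  have hM0 : 0 ≤ M := by rw [hM]; positivity
  have hM2 : M ≤ 2 * B := by rw [hM]; exact div_le_self (by positivity) hN
  have e1 : (1 : ℝ) ≤ 2 ^ ε := Real.one_le_rpow one_le_two hε.le
  have q1 : Q ^ (-(3 / 10) : ℝ) ≤ 2 * Q ^ (-(1 / 4) : ℝ) := by
    have : Q ^ (-(3 / 10) : ℝ) = Q ^ (-(1 / 20) : ℝ) * Q ^ (-(1 / 4) : ℝ) := by
      rw [← Real.rpow_add hQ0]; norm_num
    rw [this]
    refine mul_le_mul_of_nonneg_right ?_ (by positivity)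
    calc Q ^ (-(1 / 20) : ℝ) ≤ (1 / 2 : ℝ) ^ (-(1 / 20) : ℝ) :=
          Real.rpow_le_rpow_of_nonpos (by norm_num) hQ (by norm_num)
      _ ≤ (1 / 2 : ℝ) ^ (-1 : ℝ) :=
          Real.rpow_le_rpow_of_exponent_ge (by norm_num) (by norm_num) (by norm_num)
      _ = 2 := by rw [Real.rpow_neg_one]; norm_num
  have hUM : U * M ≤ 2 * (U * B) := by nlinarith
  have q2 : (U * M) ^ ε ≤ 2 ^ ε * (U * B) ^ ε := by
    rw [← Real.mul_rpow (by norm_num) (by positivity)]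
    exact Real.rpow_le_rpow (by positivity) hUM hε.le
  have q3 : (U * M) ^ (2 / 3 : ℝ) ≤ 2 * (U * B) ^ (2 / 3 : ℝ) :=
    calc _ ≤ (2 * (U * B)) ^ (2 / 3 : ℝ) := Real.rpow_le_rpow (by positivity) hUM (by norm_num)
      _ = 2 ^ (2 / 3 : ℝ) * (U * B) ^ (2 / 3 : ℝ) := Real.mul_rpow (by norm_num) (by positivity)
      _ ≤ 2 ^ (1 : ℝ) * (U * B) ^ (2 / 3 : ℝ) := by
          gcongr
          · norm_num
          · norm_num
      _ = _ := by rw [Real.rpow_one]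
  have t1 : U ^ (1 / 3 : ℝ) * Q ^ (-(3 / 10) : ℝ) * M ≤
      4 * 2 ^ ε * (U ^ (1 / 3 : ℝ) * Q ^ (-(1 / 4) : ℝ) * (B / N)) :=
    calc _ ≤ U ^ (1 / 3 : ℝ) * (2 * Q ^ (-(1 / 4) : ℝ)) * M := by gcongr
      _ = 4 * 1 * (U ^ (1 / 3 : ℝ) * Q ^ (-(1 / 4) : ℝ) * (B / N)) := by rw [hM]; ring
      _ ≤ _ := by gcongr
  have t2 : (U * M) ^ ε * (U + (U * M) ^ (2 / 3 : ℝ)) ≤
      4 * 2 ^ ε * ((U * B) ^ ε * (U + (U * B) ^ (2 / 3 : ℝ))) := by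
    have : 0 ≤ (U * B) ^ (2 / 3 : ℝ) := by positivity
    calc _ ≤ 2 ^ ε * (U * B) ^ ε * (4 * (U + (U * B) ^ (2 / 3 : ℝ))) := by
          gcongr
          linarith
      _ = _ := by ring
  exact (add_le_add t1 t2).trans_eq (mul_add _ _ _).symm

/-- `StAll` with `M = 2 B / N l ≥ 1`, `c n = γ (l n) cb h n (N (l n) / B)^z` (`cb_mul_left`, `PSq.of_mul_left`);
the sums over `ball (2 B)` and `ball M` agree (`Finset.sum_subset`); `‖c n‖ ≤ 4 ‖γ (l n)‖`. -/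
theorem rs_all (h2 : StAll) {ε : ℝ} (hε : 0 < ε) : ∃ C : ℝ, 0 < C ∧ ∀ (γ : O → ℂ) (B U Q : ℝ) (l h : O)
    (z : ℂ) (S : Finset O), 1 ≤ B → Supp γ B (2 * B) → PSq l → nm l ≤ 2 * B → 1 ≤ U → 1 / 2 ≤ Q →
    |z.re| ≤ 2 → (∀ k ∈ S, k ≠ 0 ∧ nm k ≤ U ∧ ∀ k₀ m : O, k = k₀ * m ^ 3 → Q < nm k₀) →
    ∑ k ∈ S, ‖RS γ (2 * B) B l h k z‖ ^ 2 ≤ C * (U ^ (1 / 3 : ℝ) * Q ^ (-(1 / 4) : ℝ) * (B / nm l) +
      (U * B) ^ ε * (U + (U * B) ^ (2 / 3 : ℝ))) * NL γ (2 * B) l := by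
  obtain ⟨C, hC⟩ := h2 ε hε
  refine ⟨(|C| + 1) * (4 * 2 ^ ε) * 16, by positivity,
    fun γ B U Q l h z S hB hγ hl hlB hU hQ hz hS => ?_⟩
  have hB0 : 0 < B := by linarith
  have hl1 := one_le_nm hl.ne_zero
  have hl0 : 0 < nm l := by linarith
  set c : O → ℂ := fun n => γ (l * n) * cb h n * ((nm (l * n) / B : ℝ) : ℂ) ^ z with hc
  have hsupp : Supp c 0 (2 * B / nm l) := fun n hn => by
    have h0 : γ (l * n) ≠ 0 := fun h0 => hn (by simp [hc, h0])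
    obtain ⟨a1, -, a2⟩ := hγ _ h0
    have a3 := PSq.of_mul_left hl.1 a1
    refine ⟨a3, nm_pos a3.ne_zero, ?_⟩
    rw [le_div_iff₀ hl0, mul_comm, ← nm_mul]
    exact a2
  have hsub : ball (2 * B / nm l) ⊆ ball (2 * B) := fun n hn =>
    mem_ball.2 ((mem_ball.1 hn).trans (div_le_self (by positivity) hl1))
  have hRS : ∀ k, RS γ (2 * B) B l h k z = ∑ n ∈ ball (2 * B / nm l), c n * cb k n := fun k => by
    rw [Finset.sum_subset hsub fun n _ hn => ?_]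
    · refine Finset.sum_congr rfl fun n _ => ?_
      rw [cb_mul_left, hc]
      ring
    · by_contra h0
      exact hn (mem_ball.2 (hsupp n (left_ne_zero_of_mul h0)).2.2)
  have hN : N2 c (2 * B / nm l) ≤ 16 * NL γ (2 * B) l := by
    rw [NL, Finset.mul_sum]
    refine (Finset.sum_le_sum fun n _ => ?_).trans
      (Finset.sum_le_sum_of_subset_of_nonneg hsub fun n _ _ => by positivity)
    calc ‖c n‖ ^ 2 ≤ (4 * ‖γ (l * n)‖) ^ 2 :=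
          pow_le_pow_left₀ (norm_nonneg _) (biw_a_coef hB0 hγ hz l h n) 2
      _ = _ := by ring
  have hN0 : 0 ≤ N2 c (2 * B / nm l) := Finset.sum_nonneg fun _ _ => sq_nonneg _
  have hQ0 : 0 < Q := by linarith
  simp only [hRS]
  refine (hC U _ Q S c hU ((one_le_div hl0).2 hlB) hQ hS hsupp).trans ?_
  have hC1 : C ≤ |C| + 1 := (le_abs_self C).trans (le_add_of_nonneg_right zero_le_one)
  have hnum := biw_a_num hU hB hl1 rfl hQ hε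
  calc _ ≤ (|C| + 1) * (4 * 2 ^ ε * (U ^ (1 / 3 : ℝ) * Q ^ (-(1 / 4) : ℝ) * (B / nm l) +
        (U * B) ^ ε * (U + (U * B) ^ (2 / 3 : ℝ)))) * (16 * NL γ (2 * B) l) := by gcongr
    _ = _ := by ring

/-- `rs_sw` for a general strip `|Re z| ≤ r` -/
theorem biw_sw {γ : O → ℂ} {B Z L δ : ℝ} {l h k₀ m : O} {z : ℂ} {r : ℕ} (hB : 0 < B)
    (hγ : Supp γ B (2 * B)) (hS : SWH γ Z L δ) (hδ : 0 ≤ δ) (hl : Prim l) (hlL : nm l ≤ L)
    (hk : k₀ * m ^ 3 ≠ 0) (hh : h ≠ 0) (hc : ¬ Cube (k₀ * m ^ 3 * h)) (hL : nm (k₀ * h) ≤ L)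
    (hm : nm m ≤ Z) (hz : |z.re| ≤ r) :
    ‖RS γ (2 * B) B l h (k₀ * m ^ 3) z‖ ≤ 2 * ((2 + r + |z.im|) * 2 ^ r) * δ := by
  have hbv := bv_cpow hB (show B ≤ 2 * B by linarith) z
  rw [show 2 * B / B = 2 by field_simp] at hbv
  have hK : (2 + ‖z‖ * Real.log 2) * (2 : ℝ) ^ |z.re| ≤ (2 + r + |z.im|) * 2 ^ r := by
    have e1 : ‖z‖ ≤ r + |z.im| := (Complex.norm_le_abs_re_add_abs_im z).trans (by linarith)
    have e2 : Real.log 2 ≤ 1 := by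
      have := Real.log_two_lt_d9
      linarith
    have e3 : (2 : ℝ) ^ |z.re| ≤ 2 ^ r := by
      rw [← Real.rpow_natCast]
      exact Real.rpow_le_rpow_of_exponent_le (by norm_num) hz
    have e4 : ‖z‖ * Real.log 2 ≤ r + |z.im| :=
      (mul_le_of_le_one_right (norm_nonneg _) e2).trans e1
    have e5 : 0 ≤ ‖z‖ * Real.log 2 := mul_nonneg (norm_nonneg _) (Real.log_nonneg (by norm_num))
    exact mul_le_mul (by linarith) e3 (by positivity) (by positivity)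
  have hk0 : k₀ ≠ 0 := left_ne_zero_of_mul hk
  have hm0 : m ≠ 0 := fun h0 => hk (by rw [h0]; ring)
  have hc' : ¬ Cube (k₀ * h) := by
    rintro ⟨j, hj⟩
    exact hc ⟨j * m, by rw [mul_right_comm, hj]; ring⟩
  have h1 := SWH.mul_bv hS hbv l (k₀ * h) m (2 * B) hl hlL (mul_ne_zero hk0 hh) hc' hL hm0 hm
  have e : RS γ (2 * B) B l h (k₀ * m ^ 3) z = ∑ n ∈ ball (2 * B), γ (l * n) *
      (if B < ((nN (l * n) : ℕ) : ℝ) ∧ ((nN (l * n) : ℕ) : ℝ) ≤ 2 * B then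
        ((((nN (l * n) : ℕ) : ℝ) / B : ℝ) : ℂ) ^ z else 0) * cb (k₀ * h * m ^ 3) n := by
    unfold RS
    refine Finset.sum_congr rfl fun n _ => ?_
    by_cases h0 : γ (l * n) = 0
    · rw [h0, zero_mul, zero_mul, zero_mul, zero_mul]
    · have h2 : B < ((nN (l * n) : ℕ) : ℝ) ∧ ((nN (l * n) : ℕ) : ℝ) ≤ 2 * B := (hγ _ h0).2
      rw [if_pos h2, mul_right_comm k₀ h, mul_right_comm (γ (l * n))]
      rfl
  rw [e]
  refine h1.trans ?_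
  gcongr

/-- `SWH.mul_bv` with `bv_cpow` for the window `(B, 2 B]`: `K ≤ (2 + ‖z‖) · 4 ≤ 16 (1 + |Im z|)`;
`k₀ m³ h = (k₀ h) m³`, and `k₀ h` is not a cube. -/
theorem rs_sw {γ : O → ℂ} {B Z L δ : ℝ} {l h k₀ m : O} {z : ℂ} (hB : 0 < B) (hγ : Supp γ B (2 * B))
    (hS : SWH γ Z L δ) (hδ : 0 ≤ δ) (hl : Prim l) (hlL : nm l ≤ L) (hk : k₀ * m ^ 3 ≠ 0) (hh : h ≠ 0)
    (hc : ¬ Cube (k₀ * m ^ 3 * h)) (hL : nm (k₀ * h) ≤ L) (hm : nm m ≤ Z) (hz : |z.re| ≤ 2) :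
    ‖RS γ (2 * B) B l h (k₀ * m ^ 3) z‖ ≤ 32 * (1 + |z.im|) * δ := by
  refine (biw_sw (r := 2) hB hγ hS hδ hl hlL hk hh hc hL hm (by exact_mod_cast hz)).trans ?_
  refine mul_le_mul_of_nonneg_right ?_ hδ
  have := abs_nonneg z.im
  push_cast
  linarith

/-- the set is contained in the image of `ball Q ×ˢ ball (U^(1/3))`; `card_ball_le` -/
theorem card_small {U Q : ℝ} (hU : 1 ≤ U) (hQ : 1 ≤ Q) {S : Finset O}
    (h : ∀ k ∈ S, k ≠ 0 ∧ nm k ≤ U ∧ ∃ k₀ m : O, k = k₀ * m ^ 3 ∧ nm k₀ ≤ Q) :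
    (S.card : ℝ) ≤ 121 * Q * U ^ (1 / 3 : ℝ) := by
  classical
  have hU3 : 1 ≤ U ^ (1 / 3 : ℝ) := Real.one_le_rpow hU (by norm_num)
  have hsub : S ⊆ (ball Q ×ˢ ball (U ^ (1 / 3 : ℝ))).image fun p => p.1 * p.2 ^ 3 := by
    intro k hk
    obtain ⟨h0, h1, k₀, m, rfl, h2⟩ := h k hk
    refine Finset.mem_image.2 ⟨(k₀, m), Finset.mem_product.2 ⟨mem_ball.2 h2, mem_ball.2 ?_⟩, rfl⟩
    have e1 : 1 ≤ nm k₀ := one_le_nm (left_ne_zero_of_mul h0)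
    have e2 : nm m ^ 3 ≤ U := by
      have e3 : nm (k₀ * m ^ 3) = nm k₀ * nm m ^ 3 := by
        rw [nm_mul, pow_three, nm_mul, nm_mul]
        ring
      have e4 : 0 ≤ nm m ^ 3 := pow_nonneg (nm_nonneg m) 3
      nlinarith
    calc nm m = (nm m ^ 3) ^ (1 / 3 : ℝ) := by
          rw [one_div]
          exact (Real.pow_rpow_inv_natCast (nm_nonneg m) (by norm_num : (3 : ℕ) ≠ 0)).symm
      _ ≤ U ^ (1 / 3 : ℝ) := Real.rpow_le_rpow (pow_nonneg (nm_nonneg m) 3) e2 (by norm_num)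
  have h1 : S.card ≤ (ball Q).card * (ball (U ^ (1 / 3 : ℝ))).card :=
    (Finset.card_le_card hsub).trans (Finset.card_image_le.trans (Finset.card_product _ _).le)
  have h2 : (S.card : ℝ) ≤ (ball Q).card * (ball (U ^ (1 / 3 : ℝ))).card := by exact_mod_cast h1
  have h3 := card_ball_le hQ
  have h4 := card_ball_le hU3
  calc (S.card : ℝ) ≤ (ball Q).card * (ball (U ^ (1 / 3 : ℝ))).card := h2
    _ ≤ 11 * Q * (11 * U ^ (1 / 3 : ℝ)) := by gcongr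
    _ = _ := by ring

/-- `U = v K`; `v^s ≤ v^(1/2) + v^(3/2)` for `1/2 ≤ s ≤ 3/2` -/
theorem second_le {U K B ε : ℝ} (hU : 0 < U) (hK : 0 < K) (hB : 0 < B) (hε : 0 < ε) (hε' : ε ≤ 1 / 2) :
    (U * B) ^ ε * (U + (U * B) ^ (2 / 3 : ℝ)) ≤ (K * B) ^ ε * (K + (K * B) ^ (2 / 3 : ℝ)) *
      ((U / K) ^ (1 / 2 : ℝ) + (U / K) ^ (3 / 2 : ℝ)) := by
  obtain ⟨v, hv, rfl⟩ : ∃ v : ℝ, 0 < v ∧ U = v * K := ⟨U / K, by positivity, by field_simp⟩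
  have key : ∀ s : ℝ, 1 / 2 ≤ s → s ≤ 3 / 2 → v ^ s ≤ v ^ (1 / 2 : ℝ) + v ^ (3 / 2 : ℝ) := by
    intro s h1 h2
    rcases le_total v 1 with h | h
    · exact (Real.rpow_le_rpow_of_exponent_ge hv h h1).trans (le_add_of_nonneg_right (by positivity))
    · exact (Real.rpow_le_rpow_of_exponent_le h h2).trans (le_add_of_nonneg_left (by positivity))
  have k1 := key (ε + 1) (by linarith) (by linarith)
  have k2 := key (ε + 2 / 3) (by linarith) (by linarith)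
  rw [Real.rpow_add hv] at k1 k2
  rw [Real.rpow_one] at k1
  rw [mul_div_cancel_right₀ _ hK.ne', mul_assoc v K B, Real.mul_rpow hv.le (by positivity),
    Real.mul_rpow hv.le (by positivity)]
  calc _ = (K * B) ^ ε * (K * (v ^ ε * v) + (K * B) ^ (2 / 3 : ℝ) * (v ^ ε * v ^ (2 / 3 : ℝ))) := by ring
    _ ≤ (K * B) ^ ε * (K * (v ^ (1 / 2 : ℝ) + v ^ (3 / 2 : ℝ)) +
        (K * B) ^ (2 / 3 : ℝ) * (v ^ (1 / 2 : ℝ) + v ^ (3 / 2 : ℝ))) := by gcongr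
    _ = _ := by ring

end Crest.Agent.R12.BI
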